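import Vale.Agent.P225.Harm.Decomp

/-!
P225, module Harm: `∑ Y_i² = (j+1)² |x|^{2j}`, the bounds on all derivatives, and the zonal vector.
-/

namespace Vale.Agent.P225.Sph

open MvPolynomial Finset
open scoped RealInnerProductSpace

noncomputable section

/-- An orthonormal family expanding every element of `H j`. -/
structure IsBasisH {d : ℕ} (j : ℕ) (Y : Fin d → Poly) : Prop where
  mem : ∀ i, Y i ∈ H j
  ortho : ∀ i i', sip (Y i) (Y i') = if i = i' then 1 else 0
  expand : ∀ p ∈ H j, p = ∑ i, sip p (Y i) • Y i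

variable {d j : ℕ} {Y : Fin d → Poly}

lemma EL_sum_sq (hY : IsBasisH j Y) (k : Fin 3) : EL k (∑ i, Y i * Y i) = 0 := by
  refine ev_ext fun x => ?_
  rw [map_sum, ev_sum, ev_zero]
  set c : Fin d → Fin d → ℝ := fun i a => sip (EL k (Y i)) (Y a) with hc
  have hskew : ∀ i a, c a i = -c i a := fun i a => by
    simp only [hc]; rw [sip_EL, sip_comm]
  have he : ∀ i, ev (EL k (Y i * Y i)) x = ∑ a, 2 * c i a * (ev (Y i) x * ev (Y a) x) := by
    intro i
    rw [Derivation.leibniz, smul_eq_mul, ev_add, ev_mul,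
      hY.expand _ (EL_mem (hY.mem i) k), ev_sum, Finset.mul_sum, ← Finset.sum_add_distrib]
    exact Finset.sum_congr rfl fun a _ => by rw [ev_smul]; simp only [hc]; ring
  rw [Finset.sum_congr rfl fun i _ => he i]
  have h2 : ∑ i, ∑ a, 2 * c i a * (ev (Y i) x * ev (Y a) x) =
      -∑ i, ∑ a, 2 * c i a * (ev (Y i) x * ev (Y a) x) := by
    conv_lhs => rw [Finset.sum_comm]
    simp only [← Finset.sum_neg_distrib]
    exact Finset.sum_congr rfl fun i _ => Finset.sum_congr rfl fun a _ => by rw [hskew i a]; ring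
  linarith

/-- A point of the great circle through `x` along `∑ c_k q_k x`. -/
def circ (c : Fin 3 → ℝ) (x : R4) (t : ℝ) : R4 :=
  Real.cos t • x + Real.sin t • ∑ k, c k • qL k x

lemma hasDerivAt_circ {c : Fin 3 → ℝ} (hc : c 0 ^ 2 + c 1 ^ 2 + c 2 ^ 2 = 1) (x : R4) (t : ℝ) :
    HasDerivAt (circ c x) (∑ k, c k • qL k (circ c x t)) t := by
  have h : HasDerivAt (circ c x) (-Real.sin t • x + Real.cos t • ∑ k, c k • qL k x) t :=
    ((Real.hasDerivAt_cos t).smul_const x).add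
      ((Real.hasDerivAt_sin t).smul_const (∑ k, c k • qL k x))
  convert h using 1
  ext a
  fin_cases a <;> simp [circ, Fin.sum_univ_three, qL]
  · linear_combination -Real.sin t * x 0 * hc
  · linear_combination -Real.sin t * x 1 * hc
  · linear_combination -Real.sin t * x 2 * hc
  · linear_combination -Real.sin t * x 3 * hc

lemma exists_circ {x y : R4} (hx : ‖x‖ = 1) (hy : ‖y‖ = 1) :
    ∃ c : Fin 3 → ℝ, c 0 ^ 2 + c 1 ^ 2 + c 2 ^ 2 = 1 ∧ ∃ t, circ c x t = y := by
  set a := ⟪x, y⟫ with ha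
  set b : Fin 3 → ℝ := fun k => ⟪qL k x, y⟫ with hb
  have hx2 : x 0 ^ 2 + x 1 ^ 2 + x 2 ^ 2 + x 3 ^ 2 = 1 := by rw [← norm_sq_eq, hx]; norm_num
  have hy2 : y 0 ^ 2 + y 1 ^ 2 + y 2 ^ 2 + y 3 ^ 2 = 1 := by rw [← norm_sq_eq, hy]; norm_num
  have hdec : y = a • x + ∑ k, b k • qL k x := by
    ext i
    fin_cases i <;> simp [ha, hb, Fin.sum_univ_three, inner_eq, qL]
    · linear_combination -y 0 * hx2
    · linear_combination -y 1 * hx2
    · linear_combination -y 2 * hx2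
    · linear_combination -y 3 * hx2
  have hab : a ^ 2 + (b 0 ^ 2 + b 1 ^ 2 + b 2 ^ 2) = 1 := by
    simp [ha, hb, inner_eq, qL]
    linear_combination (y 0 ^ 2 + y 1 ^ 2 + y 2 ^ 2 + y 3 ^ 2) * hx2 + hy2
  have ha1 : -1 ≤ a ∧ a ≤ 1 := by
    constructor <;> nlinarith [sq_nonneg (b 0), sq_nonneg (b 1), sq_nonneg (b 2)]
  set s := Real.sqrt (1 - a ^ 2) with hs
  rcases eq_or_ne s 0 with h0 | h0
  · refine ⟨![1, 0, 0], by simp, Real.arccos a, ?_⟩
    have hb0 : ∀ k, b k = 0 := fun k => by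
      have : 1 - a ^ 2 ≤ 0 := Real.sqrt_eq_zero'.1 h0
      fin_cases k <;> simp <;>
        nlinarith [sq_nonneg (b 0), sq_nonneg (b 1), sq_nonneg (b 2)]
    rw [hdec, circ, Real.cos_arccos ha1.1 ha1.2, Real.sin_arccos, ← hs, h0]
    simp [hb0]
  · refine ⟨fun k => b k / s, ?_, Real.arccos a, ?_⟩
    · simp only [div_pow, ← add_div]
      rw [div_eq_one_iff_eq (pow_ne_zero 2 h0), hs, Real.sq_sqrt (by nlinarith)]
      linarith
    · rw [hdec, circ, Real.cos_arccos ha1.1 ha1.2, Real.sin_arccos, ← hs, Finset.smul_sum]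
      congr 1
      exact Finset.sum_congr rfl fun k _ => by
        rw [smul_smul, mul_div_cancel₀ _ h0]

/-- A polynomial killed by the three left fields is constant on the sphere. -/
lemma const_of_EL_eq_zero {p : Poly} (hp : ∀ k, EL k p = 0) {x y : R4} (hx : ‖x‖ = 1)
    (hy : ‖y‖ = 1) : ev p x = ev p y := by
  obtain ⟨c, hc, t, ht⟩ := exists_circ hx hy
  have hd : ∀ s, HasDerivAt (fun r => ev p (circ c x r)) 0 s := fun s => by
    have h := (hasFDerivAt_ev p (circ c x s)).differentiableAt.hasFDerivAt.comp_hasDerivAt s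
      (hasDerivAt_circ hc x s)
    simpa [map_sum, fderiv_qL, hp, Function.comp_def] using h
  have h := is_const_of_deriv_eq_zero (fun s => (hd s).differentiableAt) (fun s => (hd s).deriv) 0 t
  rw [show circ c x 0 = x by simp [circ], ht] at h
  exact h

/-- `∑ Y_i² = d` on the sphere. -/
theorem sum_sq_sphere (hY : IsBasisH j Y) {x : R4} (hx : ‖x‖ = 1) :
    ∑ i, ev (Y i) x ^ 2 = d := by
  have hP : ev (∑ i, Y i * Y i) x = d := by
    have h : avg (fun _ : R4 => ev (∑ i, Y i * Y i) x) = d := by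
      rw [avg_congr (g := fun z => ∑ i, ev (Y i) z * ev (Y i) z) fun z hz => by
        rw [const_of_EL_eq_zero (EL_sum_sq hY) hx hz, ev_sum]
        exact Finset.sum_congr rfl fun i _ => ev_mul _ _ _]
      rw [avg_sum _ fun i _ => by fun_prop]
      change ∑ i, sip (Y i) (Y i) = d
      simp [hY.ortho]
    rwa [avg_const] at h
  simpa [pow_two] using hP

lemma sum_sq_poly (hY : IsBasisH j Y) : ∑ i, Y i * Y i = (d : ℝ) • rsq ^ j := by
  refine sub_eq_zero.1 (eq_zero_of_sphere (j := 2 * j) ?_ fun x hx => ?_)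
  · refine (IsHomogeneous.sum _ _ _ fun i _ => ?_).sub ?_
    · rw [two_mul]; exact (mem_H.1 (hY.mem i)).1.mul (mem_H.1 (hY.mem i)).1
    · rw [smul_eq_C_mul]; exact (isHomogeneous_rsq.pow j).C_mul _
  · have := sum_sq_sphere hY hx
    simp [← pow_two, this, hx]

/-- The squared length of the derivatives of order `n`. -/
def G : ℕ → Poly → Poly
  | 0, p => p * p
  | n + 1, p => ∑ a, G n (pderiv a p)

/-- The sum of the absolute values of the partial derivatives of order `n`. -/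
def derivSum : ℕ → Poly → R4 → ℝ
  | 0, p, x => |ev p x|
  | n + 1, p, x => ∑ a, derivSum n (pderiv a p) x

lemma lap_G (n : ℕ) : ∀ p : Poly, lap p = 0 → lap (G n p) = (2 : ℝ) • G (n + 1) p := by
  induction n with
  | zero =>
    intro p hp
    simp [G, lap_mul, hp, smul_eq_C_mul, map_ofNat]
  | succ n ih =>
    intro p hp
    simp only [G, map_sum, Finset.smul_sum]
    refine Finset.sum_congr rfl fun a _ => ?_
    have h := ih (pderiv a p) (by rw [lap_pderiv, hp, map_zero])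
    rw [h]
    simp [G, Finset.smul_sum]

lemma lap_rsq_pow (m : ℕ) :
    lap (rsq ^ m) = ((2 * m * (2 * m + 2) : ℕ) : ℝ) • rsq ^ (m - 1) := by
  induction m with
  | zero => simp [lap_apply]
  | succ m ih =>
    rw [pow_succ', lap_rsq_mul (isHomogeneous_rsq.pow m), ih]
    rcases m.eq_zero_or_pos with rfl | hm
    · norm_num
    · rw [Nat.add_sub_cancel, mul_smul_comm, ← pow_succ', Nat.sub_add_cancel hm, ← add_smul]
      congr 1
      push_cast
      ring

lemma exists_sum_G (hY : IsBasisH j Y) (n : ℕ) :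
    ∃ c : ℝ, 0 ≤ c ∧ c ≤ d * (2 * ((j : ℝ) + 1) ^ 2) ^ n ∧
      ∑ i, G n (Y i) = c • rsq ^ (j - n) := by
  induction n with
  | zero => exact ⟨d, Nat.cast_nonneg d, by simp, by simpa [G] using sum_sq_poly hY⟩
  | succ n ih =>
    obtain ⟨c, hc0, hc1, hc⟩ := ih
    set m := j - n with hm
    refine ⟨c * ((m : ℝ) * (2 * m + 2)), by positivity, ?_, ?_⟩
    · rw [pow_succ, ← mul_assoc (d : ℝ)]
      refine mul_le_mul hc1 ?_ (by positivity) (by positivity)
      have : (m : ℝ) ≤ j := by exact_mod_cast Nat.sub_le j n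
      nlinarith [Nat.cast_nonneg (α := ℝ) m]
    · have h : lap (∑ i, G n (Y i)) = (2 : ℝ) • ∑ i, G (n + 1) (Y i) := by
        rw [map_sum, Finset.smul_sum]
        exact Finset.sum_congr rfl fun i _ => lap_G n _ (mem_H.1 (hY.mem i)).2
      rw [hc, map_smul, lap_rsq_pow, smul_smul] at h
      rw [show j - (n + 1) = m - 1 by omega]
      have h2 := congrArg (fun p : Poly => (2⁻¹ : ℝ) • p) h
      simp only [smul_smul] at h2
      rw [show (2⁻¹ : ℝ) * 2 = 1 by norm_num, one_smul] at h2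
      rw [← h2]
      congr 1
      push_cast
      ring

lemma derivSum_sq_le (n : ℕ) : ∀ (p : Poly) (x : R4),
    0 ≤ derivSum n p x ∧ derivSum n p x ^ 2 ≤ 4 ^ n * ev (G n p) x := by
  induction n with
  | zero => exact fun p x => ⟨abs_nonneg _, by simp [derivSum, G, pow_two]⟩
  | succ n ih =>
    intro p x
    refine ⟨Finset.sum_nonneg fun a _ => (ih _ x).1, ?_⟩
    calc derivSum (n + 1) p x ^ 2 ≤ 4 * ∑ a, derivSum n (pderiv a p) x ^ 2 := by
          show (∑ a, derivSum n (pderiv a p) x) ^ 2 ≤ _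
          simpa using sq_sum_le_card_mul_sum_sq (s := (Finset.univ : Finset (Fin 4)))
            (f := fun a => derivSum n (pderiv a p) x)
      _ ≤ 4 * ∑ a, 4 ^ n * ev (G n (pderiv a p)) x := by
          have := Finset.sum_le_sum fun a (_ : a ∈ Finset.univ) => (ih (pderiv a p) x).2
          linarith
      _ = 4 ^ (n + 1) * ev (G (n + 1) p) x := by
          simp [G, Finset.mul_sum, pow_succ]; ring

lemma ev_G_comb (n : ℕ) : ∀ (Y : Fin d → Poly) (v : Fin d → ℝ) (x : R4),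
    ev (G n (∑ i, v i • Y i)) x ≤ (∑ i, v i ^ 2) * ∑ i, ev (G n (Y i)) x := by
  induction n with
  | zero =>
    intro Y v x
    simp only [G, ev_mul, ev_sum, ev_smul]
    simp only [← pow_two]
    exact Finset.sum_mul_sq_le_sq_mul_sq Finset.univ v fun i => ev (Y i) x
  | succ n ih =>
    intro Y v x
    simp only [G, ev_sum]
    rw [Finset.sum_comm (s := Finset.univ (α := Fin d)), Finset.mul_sum]
    refine Finset.sum_le_sum fun a _ => ?_
    have h := ih (fun i => pderiv a (Y i)) v x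
    simpa [map_sum] using h

lemma norm_iteratedFDeriv_ev (n : ℕ) : ∀ (p : Poly) (x : R4),
    ‖iteratedFDeriv ℝ n (ev p) x‖ ≤ derivSum n p x := by
  induction n with
  | zero => intro p x; rw [norm_iteratedFDeriv_zero, Real.norm_eq_abs]; exact le_rfl
  | succ n ih =>
    intro p x
    let L : Fin 4 → (ℝ →L[ℝ] (R4 →L[ℝ] ℝ)) := fun a =>
      (ContinuousLinearMap.id ℝ ℝ).smulRight (EuclideanSpace.proj a : R4 →L[ℝ] ℝ)
    have hf : fderiv ℝ (ev p) = fun y => ∑ a, L a (ev (pderiv a p) y) := by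
      funext y
      rw [(hasFDerivAt_ev p y).fderiv]
      simp [L]
    have hnorm : ∀ a, ‖L a‖ ≤ 1 := fun a => by
      simp only [L, ContinuousLinearMap.norm_smulRight_apply]
      refine mul_le_one₀ ContinuousLinearMap.norm_id_le (norm_nonneg _) ?_
      refine ContinuousLinearMap.opNorm_le_bound _ zero_le_one fun v => ?_
      simpa using PiLp.norm_apply_le v a
    have hcd : ∀ a, ContDiff ℝ n fun y => L a (ev (pderiv a p) y) := fun a =>
      (L a).contDiff.comp (contDiff_ev _)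
    rw [← norm_iteratedFDeriv_fderiv, hf, iteratedFDeriv_sum fun a _ => hcd a]
    rw [Finset.sum_apply]
    refine (norm_sum_le _ _).trans (Finset.sum_le_sum fun a _ => ?_)
    refine ((L a).norm_iteratedFDeriv_comp_left (contDiff_ev (n := n) (pderiv a p)).contDiffAt
      le_rfl).trans ?_
    exact (mul_le_of_le_one_left (norm_nonneg _) (hnorm a)).trans (ih _ x)

lemma succ_le_two_pow (j : ℕ) : (j : ℝ) + 1 ≤ 2 ^ j := by
  exact_mod_cast j.lt_two_pow_self

/-- The bound on every derivative of a combination of the basis. -/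
theorem deriv_bound_comb (hY : IsBasisH j Y) (hd : d = (j + 1) ^ 2) (v : Fin d → ℝ) (n : ℕ)
    {x : R4} (hx : ‖x‖ ≤ 1) :
    ‖iteratedFDeriv ℝ n (ev (∑ i, v i • Y i)) x‖ ≤
      3 ^ n * 2 ^ j * ((j : ℝ) + 1) ^ n * Real.sqrt (∑ i, v i ^ 2) := by
  subst hd
  refine (norm_iteratedFDeriv_ev n _ x).trans (le_of_sq_le_sq ?_ (by positivity))
  obtain ⟨c, hc0, hc1, hc⟩ := exists_sum_G hY n
  have hv : 0 ≤ ∑ i, v i ^ 2 := by positivity
  have hsum : ∑ i, ev (G n (Y i)) x ≤ (((j + 1) ^ 2 : ℕ) : ℝ) * (2 * ((j : ℝ) + 1) ^ 2) ^ n := by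
    rw [← ev_sum, hc, ev_smul, ev_pow, ev_rsq]
    exact (mul_le_of_le_one_right hc0 (pow_le_one₀ (sq_nonneg _)
      (pow_le_one₀ (norm_nonneg x) hx))).trans hc1
  calc derivSum n (∑ i, v i • Y i) x ^ 2 ≤ 4 ^ n * ev (G n (∑ i, v i • Y i)) x :=
        (derivSum_sq_le n _ x).2
    _ ≤ 4 ^ n * ((∑ i, v i ^ 2) * ((((j + 1) ^ 2 : ℕ) : ℝ) * (2 * ((j : ℝ) + 1) ^ 2) ^ n)) :=
        mul_le_mul_of_nonneg_left
          ((ev_G_comb n Y v x).trans (mul_le_mul_of_nonneg_left hsum hv)) (by positivity)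
    _ = (8 ^ n * (((j : ℝ) + 1) ^ n) ^ 2) * ((((j : ℝ) + 1) ^ 2) * ∑ i, v i ^ 2) := by
        rw [show (8 : ℝ) ^ n = 4 ^ n * 2 ^ n by rw [← mul_pow]; norm_num]
        simp only [mul_pow, ← pow_mul, Nat.mul_comm 2 n]
        push_cast
        ring
    _ ≤ ((3 ^ n) ^ 2 * (((j : ℝ) + 1) ^ n) ^ 2) * (((2 : ℝ) ^ j) ^ 2 * ∑ i, v i ^ 2) := by
        gcongr
        · rw [← pow_mul, Nat.mul_comm, pow_mul]
          gcongr
          norm_num
        · exact succ_le_two_pow j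
    _ = (3 ^ n * 2 ^ j * ((j : ℝ) + 1) ^ n * Real.sqrt (∑ i, v i ^ 2)) ^ 2 := by
        rw [mul_pow, mul_pow, mul_pow, Real.sq_sqrt hv]; ring

/-- The pointwise bound. -/
theorem abs_comb_le (hY : IsBasisH j Y) (hd : d = (j + 1) ^ 2) (v : Fin d → ℝ) (x : R4) :
    |ev (∑ i, v i • Y i) x| ≤ 2 ^ j * Real.sqrt (∑ i, v i ^ 2) * ‖x‖ ^ j := by
  subst hd
  have hv : 0 ≤ ∑ i, v i ^ 2 := by positivity
  refine abs_le_of_sq_le_sq ?_ (by positivity)
  have h : ev ((∑ i, v i • Y i) * (∑ i, v i • Y i)) x ≤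
      (∑ i, v i ^ 2) * ∑ i, ev (Y i * Y i) x := ev_G_comb 0 Y v x
  rw [ev_mul, ← pow_two, ← ev_sum, sum_sq_poly hY, ev_smul, ev_pow, ev_rsq] at h
  rw [mul_pow, mul_pow, Real.sq_sqrt hv]
  calc ev (∑ i, v i • Y i) x ^ 2 ≤ (∑ i, v i ^ 2) * (((j + 1) ^ 2 : ℕ) * (‖x‖ ^ 2) ^ j) := h
    _ = (((j : ℝ) + 1) ^ 2 * ∑ i, v i ^ 2) * (‖x‖ ^ j) ^ 2 := by
        rw [← pow_mul, ← pow_mul, Nat.mul_comm]; push_cast; ring
    _ ≤ ((2 : ℝ) ^ j) ^ 2 * (∑ i, v i ^ 2) * (‖x‖ ^ j) ^ 2 := by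
        gcongr
        exact succ_le_two_pow j

end

end Vale.Agent.P225.Sph
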