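import Vale.Agent.P225.Harm.Adapted
import Vale.Agent.P225.Harm.Bounds

/-!
P225, module Harm: the data `Core.Harm` exists.
-/

namespace Vale.Agent.P225.Sph

open MvPolynomial Finset
open scoped RealInnerProductSpace

noncomputable section

variable (Y : (j : ℕ) → Fin ((j + 1) ^ 2) → Poly)

/-- The polynomial with coefficient vector `v`. -/
def comb (j : ℕ) : V j →ₗ[ℝ] Poly where
  toFun v := ∑ i, v i • Y j i
  map_add' u v := by simp [add_smul, Finset.sum_add_distrib]
  map_smul' c v := by simp [Finset.smul_sum, smul_smul]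

lemma comb_apply (j : ℕ) (v : V j) : comb Y j v = ∑ i, v i • Y j i := rfl

lemma ev_comb (j : ℕ) (v : V j) :
    ev (comb Y j v) = fun x => ∑ i, v i * ev (Y j i) x := funext fun x => by simp [comb_apply]

/-- The compression of a linear map of polynomials between two degrees. -/
def opOf (F : Poly →ₗ[ℝ] Poly) (i j : ℕ) : Op i j :=
  LinearMap.toContinuousLinearMap
    { toFun := fun v => WithLp.toLp 2 fun a => sip (Y j a) (F (comb Y i v))
      map_add' := fun u v => by ext a; simp [sip_add_right]
      map_smul' := fun c v => by ext a; simp [sip_smul_right] }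

lemma opOf_apply (F : Poly →ₗ[ℝ] Poly) (i j : ℕ) (v : V i) (a : Fin ((j + 1) ^ 2)) :
    opOf Y F i j v a = sip (Y j a) (F (comb Y i v)) := rfl

lemma inner_opOf (F : Poly →ₗ[ℝ] Poly) {i j : ℕ} (u : V j) (v : V i) :
    ⟪u, opOf Y F i j v⟫ = sip (comb Y j u) (F (comb Y i v)) := by
  rw [comb_apply, sip_sum_left, PiLp.inner_apply]
  exact Finset.sum_congr rfl fun a _ => by simp [opOf_apply, sip_smul_left, mul_comm]

variable {Y} (hY : ∀ j, IsBasisH j (Y j))

include hY

lemma comb_mem (j : ℕ) (v : V j) : comb Y j v ∈ H j :=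
  Submodule.sum_mem _ fun i _ => Submodule.smul_mem _ _ ((hY j).mem i)

lemma sip_comb (j : ℕ) (v : V j) (a : Fin ((j + 1) ^ 2)) : sip (comb Y j v) (Y j a) = v a := by
  simp [comb_apply, sip_sum_left, sip_smul_left, (hY j).ortho]

lemma comb_inj {j : ℕ} {u v : V j} (h : comb Y j u = comb Y j v) : u = v := by
  ext a
  rw [← sip_comb hY j u a, h, sip_comb hY]

lemma inner_comb {j : ℕ} (u v : V j) : ⟪u, v⟫ = sip (comb Y j u) (comb Y j v) := by
  conv_rhs => rw [comb_apply Y j v, sip_sum_right]
  rw [PiLp.inner_apply]
  exact Finset.sum_congr rfl fun a _ => by simp [sip_smul_right, sip_comb hY, mul_comm]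

lemma comb_opOf {F : Poly →ₗ[ℝ] Poly} {i j : ℕ} (v : V i) (h : F (comb Y i v) ∈ H j) :
    comb Y j (opOf Y F i j v) = F (comb Y i v) := by
  conv_rhs => rw [(hY j).expand _ h]
  rw [comb_apply]
  exact Finset.sum_congr rfl fun a _ => by rw [opOf_apply, sip_comm]

lemma comb_EL (j : ℕ) (k : Fin 3) (v : V j) :
    comb Y j (opOf Y (EL k).toLinearMap j j v) = EL k (comb Y j v) :=
  comb_opOf hY v (EL_mem (comb_mem hY j v) k)

lemma comb_ER (j : ℕ) (k : Fin 3) (v : V j) :
    comb Y j (opOf Y (ER k).toLinearMap j j v) = ER k (comb Y j v) :=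
  comb_opOf hY v (ER_mem (comb_mem hY j v) k)

lemma comb_single (j : ℕ) (i : Fin ((j + 1) ^ 2)) :
    comb Y j (EuclideanSpace.single i 1) = Y j i := by
  simp [comb_apply, PiLp.single_apply, ite_smul, Finset.sum_ite_eq']

lemma totalDegree_comb_le (j : ℕ) (v : V j) : (comb Y j v).totalDegree ≤ j :=
  ((mem_H.1 (comb_mem hY j v)).1).totalDegree_le

lemma totalDegree_mul_comb_le (i d : ℕ) (v : V i) (w : V d) :
    (comb Y d w * comb Y i v).totalDegree ≤ i + d :=
  (totalDegree_mul _ _).trans
    (by linarith [totalDegree_comb_le hY i v, totalDegree_comb_le hY d w])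

lemma sip_mul_band {i j d : ℕ} (u : V j) (w : V d) (v : V i) (h : i + d < j) :
    sip (comb Y j u) (comb Y d w * comb Y i v) = 0 := by
  obtain ⟨g, hg, he⟩ := expands_of_totalDegree_le (totalDegree_mul_comb_le hY i d v w)
  have h1 : sip (comb Y j u) (comb Y d w * comb Y i v) =
      sip (comb Y j u) (∑ k ∈ range (i + d + 1), g k) := avg_congr fun x hx => by rw [he x hx]
  rw [h1, sip_sum_right]
  exact Finset.sum_eq_zero fun k hk =>
    sip_H_ne (by have := Finset.mem_range.1 hk; omega) (comb_mem hY j u) (hg k)

/-- The vector of the values of the basis. -/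
lemma zonal_deriv {j : ℕ} {c : Fin 3 → ℝ} (hc : c 0 ^ 2 + c 1 ^ 2 + c 2 ^ 2 = 1) (x : R4)
    (t : ℝ) :
    HasDerivAt (fun s => ∑ i, ev (Y j i) (circ c x s) • (EuclideanSpace.single i 1 : V j))
      (-∑ k, c k • opOf Y (EL k).toLinearMap j j
        (∑ i, ev (Y j i) (circ c x t) • (EuclideanSpace.single i 1 : V j))) t := by
  set z := circ c x t with hz
  have h1 : ∀ i, HasDerivAt (fun s => ev (Y j i) (circ c x s))
      (∑ k, c k * ev (EL k (Y j i)) z) t := by
    intro i
    have h := (hasFDerivAt_ev (Y j i) z).differentiableAt.hasFDerivAt.comp_hasDerivAt t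
      (hasDerivAt_circ hc x t)
    simpa [map_sum, fderiv_qL, Function.comp_def, ← hz] using h
  refine (HasDerivAt.fun_sum (u := Finset.univ) fun i _ => (h1 i).smul_const
    (EuclideanSpace.single i (1 : ℝ) : V j)).congr_deriv ?_
  ext b
  simp only [WithLp.ofLp_neg, WithLp.ofLp_sum, WithLp.ofLp_smul, Pi.neg_apply, Finset.sum_apply,
    Pi.smul_apply, smul_eq_mul, PiLp.single_apply, mul_ite, mul_one, mul_zero,
    Finset.sum_ite_eq, Finset.mem_univ, if_true, opOf_apply]
  rw [← Finset.sum_neg_distrib]
  refine Finset.sum_congr rfl fun k _ => ?_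
  have hexp := congrArg (fun p => ev p z) ((hY j).expand _ (EL_mem ((hY j).mem b) k))
  simp only [ev_sum, ev_smul] at hexp
  rw [map_sum, map_sum, sip_sum_right, ← mul_neg, ← Finset.sum_neg_distrib, hexp]
  congr 1
  refine Finset.sum_congr rfl fun a _ => ?_
  rw [map_smul, comb_single hY, map_smul, sip_smul_right, sip_EL]
  simp [mul_comm]

omit hY

/-- The data exist. -/
theorem exists_harm : Nonempty Harm := by
  choose Y chg hmem hortho hexp hsq hle hcard using exists_adapted
  have hY : ∀ j, IsBasisH j (Y j) := fun j => ⟨hmem j, hortho j, hexp j⟩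
  refine ⟨{
    Y := fun j i => ev (Y j i)
    smooth := fun j i => contDiff_ev _
    homog := fun j i c x => ev_homog (mem_H.1 (hmem j i)).1 c x
    harmonic := fun j i x => ?_
    EL := fun j k => opOf Y (EL k).toLinearMap j j
    ER := fun j k => opOf Y (ER k).toLinearMap j j
    deriv_left := fun j k v x => ?_
    deriv_right := fun j k v x => ?_
    skew_left := fun j k u v => ?_
    skew_right := fun j k u v => ?_
    comm := fun j k l v => comb_inj hY ?_
    rel_left := fun j k v => comb_inj hY ?_
    rel_right := fun j k v => comb_inj hY ?_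
    casimir_left := fun j v => comb_inj hY ?_
    casimir_right := fun j v => comb_inj hY ?_
    wt := chg
    wt_le := fun j i => (hle j i).1
    wt_parity := fun j i => ?_
    wt_card := fun j m hm hp => ?_
    wt_eigen := fun j i => comb_inj hY ?_
    indep := fun n c h j hj => ?_
    mul := fun d w i j => opOf Y (LinearMap.mulLeft ℝ (comb Y d w)) i j
    mul_band := fun d w i j h => ?_
    mul_eq := fun d w i v x hx => ?_
    mul_swap := fun d w i v j u => ?_
    mul_symm := fun d w i v j u => ?_
    C := 2
    one_le_C := one_le_two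
    bound := fun j v x => ?_
    deriv_bound := fun n => ⟨3 ^ n, fun j v x hx => ?_⟩
    mul_norm := fun d w i j => ?_
    cyclic := fun j A hA h0 => ?_ }⟩
  · simp only [pd_ev]
    rw [← ev_sum, ← lap_apply, (mem_H.1 (hmem j i)).2, ev_zero]
  · rw [← ev_comb Y j v, fderiv_qL]
    rw [← comb_EL hY j k v, ev_comb]
  · rw [← ev_comb Y j v, fderiv_qR]
    rw [← comb_ER hY j k v, ev_comb]
  · rw [real_inner_comm, inner_opOf, inner_opOf, sip_comm]
    exact sip_EL k _ _
  · rw [real_inner_comm, inner_opOf, inner_opOf, sip_comm]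
    exact sip_ER k _ _
  · simp only [comb_EL hY, comb_ER hY, EL_ER_comm]
  · simp only [map_sub, map_smul, comb_EL hY]
    exact EL_rel k _
  · simp only [map_sub, map_smul, comb_ER hY]
    exact ER_rel k _
  · simp only [map_sum, map_smul, comb_EL hY]
    exact casimirL (comb_mem hY j v)
  · simp only [map_sum, map_smul, comb_ER hY]
    exact casimirR (comb_mem hY j v)
  · obtain ⟨r, hr⟩ := (hle j i).2
    omega
  · have he : Even (j + m) := Nat.even_iff.2 (by omega)
    have h := hcard j m
    rw [labelDim, if_pos ⟨hm, he⟩] at h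
    exact h
  · simp only [map_smul, comb_ER hY, comb_single hY]
    exact hsq j i
  · ext a
    have h1 : sip (∑ k ∈ range n, comb Y k (c k)) (Y j a) = sip 0 (Y j a) := by
      refine avg_congr fun x hx => ?_
      have h2 := h x hx
      simp only [ev_sum, ev_comb, ev_zero, zero_mul]
      simp [h2]
    rw [sip_sum_left, sip_zero_left, Finset.sum_eq_single j
      (fun k _ hk => sip_H_ne hk (comb_mem hY k _) (hmem j a))
      (fun hk => absurd (Finset.mem_range.2 hj) hk), sip_comb hY] at h1
    simpa using h1
  · refine ContinuousLinearMap.ext fun v => ext_inner_left ℝ fun u => ?_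
    rw [inner_opOf, ContinuousLinearMap.zero_apply, inner_zero_right, LinearMap.mulLeft_apply]
    rcases h with h | h
    · have h1 := sip_mul_band hY v w u h
      rw [← h1]
      exact avg_congr fun x _ => by simp only [ev_mul]; ring
    · exact sip_mul_band hY u w v h
  · have h := ev_expand (fun j i => hmem j i) (fun j p hp => hexp j p hp)
      (totalDegree_mul_comb_le hY i d v w) hx
    rw [ev_mul, ev_comb, ev_comb] at h
    refine h.trans (Finset.sum_congr rfl fun j _ => Finset.sum_congr rfl fun a _ => ?_)
    rw [opOf_apply, sip_comm, LinearMap.mulLeft_apply]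
  · simp only [inner_opOf, LinearMap.mulLeft_apply]
    exact avg_congr fun x _ => by simp only [ev_mul]; ring
  · simp only [inner_opOf, LinearMap.mulLeft_apply]
    exact avg_congr fun x _ => by simp only [ev_mul]; ring
  · have h := abs_comb_le (hY j) rfl (fun i => v i) x
    rw [← comb_apply Y j v, ev_comb] at h
    simpa [EuclideanSpace.norm_eq] using h
  · have h := deriv_bound_comb (hY j) rfl (fun i => v i) n hx
    rw [← comb_apply Y j v, ev_comb] at h
    simpa [EuclideanSpace.norm_eq] using h
  · refine ContinuousLinearMap.opNorm_le_bound _ (by positivity) fun v => ?_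
    set r := opOf Y (LinearMap.mulLeft ℝ (comb Y d w)) i j v with hr
    have hB : ∀ x : R4, ‖x‖ = 1 → |ev (comb Y d w) x| ≤ 2 ^ d * ‖w‖ := fun x hx => by
      have h := abs_comb_le (hY d) rfl (fun a => w a) x
      rw [← comb_apply Y d w] at h
      simpa [EuclideanSpace.norm_eq, hx] using h
    have h1 : ‖r‖ ^ 2 = sip (comb Y j r) (comb Y d w * comb Y i v) := by
      rw [← real_inner_self_eq_norm_sq]
      nth_rw 2 [hr]
      rw [inner_opOf, LinearMap.mulLeft_apply]
    have h2 := abs_sip_mul_le (p := comb Y j r) (q := comb Y i v) hB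
    rw [← h1, ← inner_comb hY, ← inner_comb hY, real_inner_self_eq_norm_sq,
      real_inner_self_eq_norm_sq, Real.sqrt_sq (norm_nonneg _), Real.sqrt_sq (norm_nonneg _),
      abs_of_nonneg (sq_nonneg _)] at h2
    rcases (norm_nonneg r).eq_or_lt with h0 | h0
    · rw [← h0]; positivity
    · nlinarith
  · set z : R4 → V j := fun x => ∑ i, ev (Y j i) x • EuclideanSpace.single i 1 with hz
    have hq : ‖qone‖ = 1 := by simp [qone]
    have hzero : ∀ y : R4, ‖y‖ = 1 → A (z y) = 0 := by
      intro y hy
      obtain ⟨c, hc, t, ht⟩ := exists_circ hq hy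
      have hd : ∀ s, HasDerivAt (fun r => ‖A (z (circ c qone r))‖ ^ 2) 0 s := by
        intro s
        have h1 := (A.hasFDerivAt.comp_hasDerivAt s (zonal_deriv hY hc qone s)).norm_sq
        refine h1.congr_deriv ?_
        simp only [Function.comp_apply, hz]
        generalize (∑ i, ev (Y j i) (circ c qone s) • EuclideanSpace.single i 1 : V j) = u
        rw [map_neg, map_sum, inner_neg_right, inner_sum,
          Finset.sum_eq_zero fun k _ => ?_, neg_zero, mul_zero]
        rw [map_smul, inner_smul_right, hA, inner_opOf]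
        simp only [Derivation.coeFn_coe]
        generalize A u = w
        have h2 := sip_EL k (comb Y j w) (comb Y j w)
        rw [sip_comm] at h2
        rw [show sip (comb Y j w) (EL k (comb Y j w)) = 0 by linarith, mul_zero]
      have h := is_const_of_deriv_eq_zero (fun s => (hd s).differentiableAt)
        (fun s => (hd s).deriv) 0 t
      have h00 : circ c qone 0 = qone := by simp [circ]
      rw [h00, ht] at h
      have : A (z qone) = 0 := h0
      rw [this, norm_zero] at h
      simpa using h.symm
    refine ContinuousLinearMap.ext fun v => ?_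
    ext a
    have hrow : ∑ i, A (EuclideanSpace.single i 1) a • Y j i = 0 := by
      refine eq_zero_of_sphere (j := j)
        (IsHomogeneous.sum _ _ _ fun i _ => (mem_H.1 (Submodule.smul_mem _ _ (hmem j i))).1)
        fun y hy => ?_
      have h := congrArg (fun u : V j => u a) (hzero y hy)
      simpa [hz, map_sum, mul_comm] using h
    have hA0 : ∀ i, A (EuclideanSpace.single i 1) a = 0 := by
      have h := comb_inj hY (u := WithLp.toLp 2 fun i => A (EuclideanSpace.single i 1) a) (v := 0)
        (by rw [map_zero]; exact hrow)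
      intro i
      simpa using congrArg (fun u : V j => u i) h
    have hv : v = ∑ i, v i • EuclideanSpace.single i (1 : ℝ) := by
      ext b; simp [Finset.sum_apply, Pi.single_apply]
    rw [hv]
    simp [map_sum, hA0]

end

end Vale.Agent.P225.Sph
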