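import Vale.Agent.P225.Harm.Defs
import Mathlib.Analysis.InnerProductSpace.Spectrum
import Mathlib.LinearAlgebra.Eigenspace.Minpoly

/-!
# P225, weights of three operators with the `su(2)` relations

On a real inner product space of dimension `(j+1)²`, operators `A, B, C` with the brackets of
`x q_k`, `A` skew and Casimir `-j(j+2)` have the spectrum of `A²` equal to `-m²`, `m ≤ j`,
`m ≡ j mod 2`, with multiplicity `labelDim j m`. This is the ladder argument, done over `ℝ`:
`A / μ` is the complex structure on the kernel of `A² + μ²`.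
-/

open Finset Module
open scoped RealInnerProductSpace

namespace Vale.Agent.P225.Sph

noncomputable section

variable {E : Type*} [NormedAddCommGroup E] [InnerProductSpace ℝ E]

/-- Operators with the brackets and the Casimir of degree `j`. -/
structure Triple (E : Type*) [NormedAddCommGroup E] [InnerProductSpace ℝ E] (j : ℕ) where
  /-- The diagonalised operator. -/
  A : E →ₗ[ℝ] E
  /-- The second operator. -/
  B : E →ₗ[ℝ] E
  /-- The third operator. -/
  C : E →ₗ[ℝ] E
  skew : ∀ u v, ⟪A u, v⟫ = -⟪u, A v⟫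
  ab : ∀ v, A (B v) - B (A v) = (2 : ℝ) • C v
  bc : ∀ v, B (C v) - C (B v) = (2 : ℝ) • A v
  ca : ∀ v, C (A v) - A (C v) = (2 : ℝ) • B v
  casimir : ∀ v, A (A v) + B (B v) + C (C v) = (-((j : ℝ) * (j + 2))) • v

namespace Triple

variable {j : ℕ} (T : Triple E j)

/-- The square of `A`. -/
def sq : E →ₗ[ℝ] E := T.A.comp T.A

/-- The kernel of `A² + μ²`. -/
def wsp (μ : ℝ) : Submodule ℝ E := Module.End.eigenspace T.sq (-(μ ^ 2))

theorem mem_wsp {μ : ℝ} {v : E} : v ∈ T.wsp μ ↔ T.A (T.A v) = (-(μ ^ 2)) • v := by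
  simp [wsp, sq]

theorem AB (v : E) : T.A (T.B v) = T.B (T.A v) + (2 : ℝ) • T.C v := by
  rw [← T.ab]; abel

theorem AC (v : E) : T.A (T.C v) = T.C (T.A v) - (2 : ℝ) • T.B v := by
  rw [← T.ca]; abel

theorem BC (v : E) : T.B (T.C v) = T.C (T.B v) + (2 : ℝ) • T.A v := by
  rw [← T.bc]; abel

theorem BB (v : E) :
    T.B (T.B v) = (-((j : ℝ) * (j + 2))) • v - T.A (T.A v) - T.C (T.C v) := by
  rw [← T.casimir]; abel

/-- The raising map. -/
def up (μ : ℝ) : E →ₗ[ℝ] E := T.B - μ⁻¹ • T.C.comp T.A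

theorem up_apply (μ : ℝ) (v : E) : T.up μ v = T.B v - μ⁻¹ • T.C (T.A v) := rfl

theorem up_mem {μ : ℝ} (hμ : μ ≠ 0) {v : E} (hv : v ∈ T.wsp μ) :
    T.up μ v ∈ T.wsp (μ + 2) := by
  rw [T.mem_wsp] at hv ⊢
  simp only [up_apply, map_sub, map_add, map_smul, AB, AC, hv]
  match_scalars <;> field_simp <;> ring

theorem up_up {μ : ℝ} (hμ : μ ≠ 0) (hμ' : μ + 2 ≠ 0) {v : E} (hv : v ∈ T.wsp μ) :
    T.up (-(μ + 2)) (T.up μ v) = (μ * (μ + 2) - (j : ℝ) * (j + 2)) • v := by
  rw [T.mem_wsp] at hv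
  simp only [up_apply, map_sub, map_add, map_smul, AB, AC, BB, BC, hv]
  match_scalars <;> field_simp <;> ring

theorem wsp_neg (μ : ℝ) : T.wsp (-μ) = T.wsp μ := by
  simp [wsp]

theorem casimir_gap {μ : ℝ} (hμ : 0 < μ) (h : μ ≠ j) :
    μ * (μ + 2) - (j : ℝ) * (j + 2) ≠ 0 := by
  have hj : (0 : ℝ) ≤ j := Nat.cast_nonneg j
  intro h0
  apply h
  nlinarith [mul_eq_zero.mp (show (μ - j) * (μ + j + 2) = 0 by linarith)
    |>.resolve_right (by linarith)]

theorem wsp_succ_ne_bot {μ : ℝ} (hμ : 0 < μ) (h : μ ≠ j) (hne : T.wsp μ ≠ ⊥) :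
    T.wsp (μ + 2) ≠ ⊥ := by
  obtain ⟨v, hv, hv0⟩ := (Submodule.ne_bot_iff _).mp hne
  refine (Submodule.ne_bot_iff _).mpr ⟨_, T.up_mem hμ.ne' hv, fun h0 => ?_⟩
  have := T.up_up hμ.ne' (by linarith) hv
  rw [h0, map_zero, eq_comm, smul_eq_zero] at this
  exact this.elim (casimir_gap hμ h) hv0

theorem zero_to_two_mem {a b : E} (ha : T.A a = 0) (hb : T.A b = 0) :
    T.B a + T.C b ∈ T.wsp 2 := by
  rw [T.mem_wsp]
  simp only [map_sub, map_add, map_smul, AB, AC, ha, hb, map_zero]
  module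

theorem mem_wsp_zero {v : E} : v ∈ T.wsp 0 ↔ T.A v = 0 := by
  rw [T.mem_wsp]
  refine ⟨fun h => ?_, fun h => by simp [h]⟩
  have : ⟪T.A v, T.A v⟫ = 0 := by rw [T.skew, h]; simp
  exact inner_self_eq_zero.mp this

theorem isSymmetric_sq : T.sq.IsSymmetric := by
  intro u v
  simp [sq, T.skew]

variable [FiniteDimensional ℝ E]

theorem finrank_wsp_succ {μ : ℝ} (hμ : 0 < μ) (h : μ ≠ j) :
    finrank ℝ (T.wsp (μ + 2)) = finrank ℝ (T.wsp μ) := by
  have h2 : μ + 2 ≠ 0 := by linarith
  have hc := casimir_gap hμ h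
  let f : T.wsp μ →ₗ[ℝ] T.wsp (μ + 2) :=
    (T.up μ).restrict fun v hv => T.up_mem hμ.ne' hv
  let g : T.wsp (μ + 2) →ₗ[ℝ] T.wsp μ :=
    (T.up (-(μ + 2))).restrict fun v hv => by
      have := T.up_mem (neg_ne_zero.mpr h2) (v := v) (by rwa [wsp_neg])
      rwa [show -(μ + 2) + 2 = -μ by ring, wsp_neg] at this
  have hf : Function.Injective f := by
    refine (injective_iff_map_eq_zero f).mpr fun v hv => ?_
    have := T.up_up hμ.ne' h2 v.2
    rw [show T.up μ v = 0 from congrArg Subtype.val hv, map_zero, eq_comm, smul_eq_zero] at this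
    exact Subtype.ext (this.resolve_left hc)
  have hg : Function.Injective g := by
    refine (injective_iff_map_eq_zero g).mpr fun v hv => ?_
    have := T.up_up (μ := -(μ + 2)) (neg_ne_zero.mpr h2) (by linarith) (v := v)
      (by rw [wsp_neg]; exact v.2)
    rw [show T.up (-(μ + 2)) v = 0 from congrArg Subtype.val hv, map_zero, eq_comm,
      smul_eq_zero] at this
    exact Subtype.ext (this.resolve_left (by convert hc using 1; ring_nf))
  exact le_antisymm (LinearMap.finrank_le_finrank_of_injective hg)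
    (LinearMap.finrank_le_finrank_of_injective hf)

theorem finrank_wsp_two (hj : 0 < j) :
    finrank ℝ (T.wsp 2) = 2 * finrank ℝ (T.wsp 0) := by
  have hc : -((j : ℝ) * (j + 2)) ≠ 0 := by
    have : (0 : ℝ) < j := by exact_mod_cast hj
    exact neg_ne_zero.mpr (by positivity)
  let f : T.wsp 0 × T.wsp 0 →ₗ[ℝ] T.wsp 2 :=
    LinearMap.codRestrict _
      ((T.B.comp (T.wsp 0).subtype).coprod (T.C.comp (T.wsp 0).subtype))
      fun p => T.zero_to_two_mem (T.mem_wsp_zero.mp p.1.2) (T.mem_wsp_zero.mp p.2.2)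
  let g : T.wsp 2 →ₗ[ℝ] E × E :=
    ((T.up (-2)).prod (T.C - (-2 : ℝ)⁻¹ • (-T.B.comp T.A))).comp (T.wsp 2).subtype
  have hfval : ∀ p, (f p : E) = T.B p.1 + T.C p.2 := fun _ => rfl
  have hgmem : ∀ v, (g v).1 ∈ T.wsp 0 ∧ (g v).2 ∈ T.wsp 0 := by
    intro v
    have hv := T.mem_wsp.mp v.2
    constructor <;> rw [T.mem_wsp_zero] <;>
      simp [g, up_apply, AB, AC, hv] <;> module
  have hgf : ∀ p, g (f p) = (-((j : ℝ) * (j + 2))) • ((p.1 : E), (p.2 : E)) := by
    intro p
    have ha := T.mem_wsp_zero.mp p.1.2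
    have hb := T.mem_wsp_zero.mp p.2.2
    ext <;> simp [g, hfval, up_apply, AB, AC, BB, BC, ha, hb]
  have hfg : ∀ v : T.wsp 2,
      T.B (g v).1 + T.C (g v).2 = (-((j : ℝ) * (j + 2))) • (v : E) := by
    intro v
    have hv := T.mem_wsp.mp v.2
    simp [g, up_apply, BB, BC, hv]
    module
  let g' : T.wsp 2 →ₗ[ℝ] T.wsp 0 × T.wsp 0 :=
    LinearMap.prod
      (LinearMap.codRestrict _ ((LinearMap.fst ℝ E E).comp g) fun v => (hgmem v).1)
      (LinearMap.codRestrict _ ((LinearMap.snd ℝ E E).comp g) fun v => (hgmem v).2)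
  have hf : Function.Injective f := by
    refine (injective_iff_map_eq_zero f).mpr fun p hp => ?_
    have := hgf p
    rw [hp, map_zero, eq_comm, smul_eq_zero] at this
    obtain ⟨h1, h2⟩ := Prod.mk_inj.mp (this.resolve_left hc)
    exact Prod.ext (Subtype.ext h1) (Subtype.ext h2)
  have hg : Function.Injective g' := by
    refine (injective_iff_map_eq_zero g').mpr fun v hv => ?_
    have h1 : (g v).1 = 0 := congrArg (fun p : T.wsp 0 × T.wsp 0 => (p.1 : E)) hv
    have h2 : (g v).2 = 0 := congrArg (fun p : T.wsp 0 × T.wsp 0 => (p.2 : E)) hv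
    have := hfg v
    rw [h1, h2, map_zero, map_zero, add_zero, eq_comm, smul_eq_zero] at this
    exact Subtype.ext (this.resolve_left hc)
  have h := le_antisymm (LinearMap.finrank_le_finrank_of_injective hg)
    (LinearMap.finrank_le_finrank_of_injective hf)
  rw [h, finrank_prod]
  ring

theorem exists_nat_of_wsp_ne_bot {μ : ℝ} (hμ : 0 ≤ μ) (hne : T.wsp μ ≠ ⊥) :
    ∃ m : ℕ, μ = m ∧ m ≤ j ∧ Even (j + m) := by
  have key : ∀ ν : ℝ, 0 < ν → T.wsp ν ≠ ⊥ → ∃ t : ℕ, ν + 2 * t = j := by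
    intro ν hν hne
    by_contra hno
    push Not at hno
    have hall : ∀ t : ℕ, T.wsp (ν + 2 * t) ≠ ⊥ := by
      intro t
      induction t with
      | zero => simpa using hne
      | succ t ih =>
        have h := T.wsp_succ_ne_bot (by positivity) (hno t) ih
        rwa [show ν + 2 * ((t + 1 : ℕ) : ℝ) = ν + 2 * t + 2 by push_cast; ring]
    refine (Module.End.finite_hasEigenvalue T.sq).not_infinite
      (Set.infinite_of_injective_forall_mem (f := fun t : ℕ => -((ν + 2 * t) ^ 2)) ?_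
        fun t => hall t)
    intro s t hst
    have h := (pow_left_inj₀ (by positivity) (by positivity) two_ne_zero).mp (neg_inj.mp hst)
    exact_mod_cast (by linarith : (s : ℝ) = t)
  rcases hμ.eq_or_lt with h | h
  · subst h
    obtain ⟨v, hv, hv0⟩ := (Submodule.ne_bot_iff _).mp hne
    rcases Nat.eq_zero_or_pos j with rfl | hj
    · exact ⟨0, by simp, le_rfl, by simp⟩
    refine ⟨0, by simp, Nat.zero_le _, ?_⟩
    have : 0 < finrank ℝ (T.wsp 2) := by
      rw [T.finrank_wsp_two hj]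
      have := Submodule.one_le_finrank_iff.mpr hne
      omega
    obtain ⟨t, ht⟩ := key 2 two_pos (Submodule.one_le_finrank_iff.mp this)
    have : j = 2 + 2 * t := by exact_mod_cast ht.symm
    exact ⟨1 + t, by omega⟩
  · obtain ⟨t, ht⟩ := key μ h hne
    have hle : 2 * t ≤ j := by
      have : ((2 * t : ℕ) : ℝ) ≤ j := by push_cast; linarith
      exact_mod_cast this
    refine ⟨j - 2 * t, ?_, by omega, ⟨j - t, by omega⟩⟩
    push_cast [Nat.cast_sub hle]
    linarith

/-- The weight multiplicities in terms of the top one. -/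
theorem finrank_wsp_top {m : ℕ} (hm : m ≤ j) (he : Even (j + m)) (hm0 : 0 < m) :
    finrank ℝ (T.wsp m) = finrank ℝ (T.wsp j) := by
  obtain ⟨r, hr⟩ := he
  obtain ⟨t, ht⟩ : ∃ t, j = m + 2 * t := ⟨r - m, by omega⟩
  clear hr hm
  induction t generalizing m with
  | zero => subst ht; rfl
  | succ t ih =>
    have hne : (m : ℝ) ≠ j := by exact_mod_cast (by omega : m ≠ j)
    rw [← T.finrank_wsp_succ (by exact_mod_cast hm0) hne,
      show (m : ℝ) + 2 = ((m + 2 : ℕ) : ℝ) by push_cast; ring]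
    exact ih (by omega) (by omega)

end Triple

theorem labelDim_sum (j : ℕ) : ∑ m ∈ range (j + 1), labelDim j m = (j + 1) ^ 2 := by
  let w : ℕ → ℕ → ℕ := fun j m => if Even (j + m) then (if m = 0 then 1 else 2) else 0
  have hw : ∀ j, ∑ m ∈ range (j + 1), w j m = j + 1 := by
    intro j
    induction j using Nat.twoStepInduction with
    | zero => rfl
    | one => rfl
    | more n ih _ =>
      have h1 : w (n + 2) (n + 1) = 0 := by
        have : ¬Even (n + 2 + (n + 1)) := fun ⟨r, hr⟩ => by omega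
        simp [w, this]
      have h2 : w (n + 2) (n + 2) = 2 := by simp [w]
      rw [sum_range_succ, sum_range_succ, h1, h2]
      have h3 : ∀ m, w (n + 2) m = w n m := fun m => by simp [w, parity_simps]
      simp_rw [h3]
      rw [ih]
  calc ∑ m ∈ range (j + 1), labelDim j m = ∑ m ∈ range (j + 1), (j + 1) * w j m :=
        sum_congr rfl fun m hm => by
          rw [mem_range] at hm
          unfold labelDim
          by_cases he : Even (j + m) <;> by_cases h0 : m = 0 <;>
            simp [w, he, h0, Nat.le_of_lt_succ hm] <;> ring_nf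
    _ = (j + 1) ^ 2 := by rw [← mul_sum, hw]; ring

variable [FiniteDimensional ℝ E]

/-- The orthonormal basis of weights. -/
theorem Triple.exists_weight_basis {j : ℕ} (T : Triple E j)
    (hdim : finrank ℝ E = (j + 1) ^ 2) :
    ∃ (b : OrthonormalBasis (Fin ((j + 1) ^ 2)) ℝ E) (chg : Fin ((j + 1) ^ 2) → ℕ),
      (∀ i, T.A (T.A (b i)) = (-((chg i : ℝ) ^ 2)) • b i) ∧
      (∀ i, chg i ≤ j ∧ Even (j + chg i)) ∧
      ∀ m, #{i | chg i = m} = labelDim j m := by
  set hS := T.isSymmetric_sq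
  set b := hS.eigenvectorBasis hdim
  set ev := hS.eigenvalues hdim
  have hb : ∀ i, T.A (T.A (b i)) = ev i • b i := fun i => hS.apply_eigenvectorBasis hdim i
  have hnorm : ∀ i, ev i = -(‖T.A (b i)‖ ^ 2) := by
    intro i
    have h : ⟪b i, T.A (T.A (b i))⟫ = ev i := by
      rw [hb, real_inner_smul_right, real_inner_self_eq_norm_sq, b.orthonormal.1 i]; ring
    have h' := T.skew (b i) (T.A (b i))
    rw [h, real_inner_self_eq_norm_sq] at h'
    linarith
  have hne : ∀ i, T.wsp ‖T.A (b i)‖ ≠ ⊥ := fun i =>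
    (Submodule.ne_bot_iff _).mpr
      ⟨b i, T.mem_wsp.mpr (by rw [hb, hnorm]), b.orthonormal.ne_zero i⟩
  choose chg hchg hle using fun i =>
    T.exists_nat_of_wsp_ne_bot (norm_nonneg _) (hne i)
  have hsq : ∀ i, ev i = -((chg i : ℝ) ^ 2) := fun i => by rw [hnorm, hchg]
  have hcard : ∀ m : ℕ, #{i | chg i = m} = finrank ℝ (T.wsp m) := by
    intro m
    rw [Triple.wsp, ← hS.card_filter_eigenvalues_eq hdim]
    congr 1
    ext i
    simp only [mem_filter, mem_univ, true_and]
    refine ⟨fun h => by simp only [← h]; exact hsq i, fun h => ?_⟩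
    have h' : ((chg i : ℝ) ^ 2) = (m : ℝ) ^ 2 := neg_inj.mp ((hsq i).symm.trans h)
    exact_mod_cast (pow_left_inj₀ (Nat.cast_nonneg _) (Nat.cast_nonneg _) two_ne_zero).mp h'
  refine ⟨b, chg, fun i => by rw [hb, hsq], hle, fun m => ?_⟩
  by_cases hm : m ≤ j ∧ Even (j + m)
  swap
  · rw [labelDim, if_neg hm, card_eq_zero, filter_eq_empty_iff]
    exact fun i _ h => hm (h ▸ hle i)
  rcases Nat.eq_zero_or_pos j with hj | hj
  · subst hj
    obtain rfl : m = 0 := by omega
    have h : ∀ i, chg i = 0 := fun i => Nat.le_zero.mp (hle i).1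
    simp [labelDim, h]
  set D := finrank ℝ (T.wsp j)
  have key : ∀ n ∈ range (j + 1), 2 * (j + 1) * #{i | chg i = n} = labelDim j n * D := by
    intro n hn
    have hn' : n ≤ j := Nat.le_of_lt_succ (mem_range.mp hn)
    by_cases he : Even (j + n)
    · rw [hcard, labelDim, if_pos ⟨hn', he⟩]
      rcases Nat.eq_zero_or_pos n with h0 | h0
      · subst h0
        have h2 : 2 ≤ j := by
          obtain ⟨r, hr⟩ := he
          omega
        have e2 : finrank ℝ (T.wsp (2 : ℝ)) = D := by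
          have := T.finrank_wsp_top h2 (by simpa [parity_simps] using he) two_pos
          simpa using this
        rw [if_pos rfl, ← e2, T.finrank_wsp_two hj, Nat.cast_zero]
        ring
      · rw [if_neg h0.ne', T.finrank_wsp_top hn' he h0]
    · rw [labelDim, if_neg (fun h => he h.2), zero_mul, card_eq_zero.mpr, mul_zero]
      exact filter_eq_empty_iff.mpr fun i _ h => he (h ▸ (hle i).2)
  have hD : D = 2 * (j + 1) := by
    have htot : ∑ n ∈ range (j + 1), #{i | chg i = n} = (j + 1) ^ 2 := by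
      rw [← card_eq_sum_card_fiberwise (t := range (j + 1))
        (fun i _ => mem_range.mpr (Nat.lt_succ_of_le (hle i).1)), card_univ, Fintype.card_fin]
    have h := sum_congr rfl key
    rw [← mul_sum, ← sum_mul, htot, labelDim_sum] at h
    exact Nat.eq_of_mul_eq_mul_left (by positivity) (h.symm.trans (mul_comm _ _))
  have h := key m (mem_range.mpr (Nat.lt_succ_of_le hm.1))
  rw [hD, mul_comm (labelDim j m)] at h
  exact Nat.eq_of_mul_eq_mul_left (by positivity) h

end

end Vale.Agent.P225.Sph
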