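import Vale.Agent.P225.Harm.Decomp
import Vale.Agent.P225.Harm.Weights

/-!
# P225, an orthonormal basis of `H j` adapted to `ER 0 ^ 2`
-/

open MvPolynomial Finset Module

namespace Vale.Agent.P225.Sph

noncomputable section

/-- An orthonormal basis of `H j` diagonalising `ER 0 ^ 2`, with the multiplicities. -/
theorem exists_adapted (j : ℕ) :
    ∃ (Y : Fin ((j + 1) ^ 2) → Poly) (chg : Fin ((j + 1) ^ 2) → ℕ),
      (∀ i, Y i ∈ H j) ∧
      (∀ i i', sip (Y i) (Y i') = if i = i' then 1 else 0) ∧
      (∀ p ∈ H j, p = ∑ i, sip p (Y i) • Y i) ∧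
      (∀ i, ER 0 (ER 0 (Y i)) = (-((chg i : ℝ) ^ 2)) • Y i) ∧
      (∀ i, chg i ≤ j ∧ Even (j + chg i)) ∧
      ∀ m, #{i | chg i = m} = labelDim j m := by
  let : NormedAddCommGroup (H j) := (sipCore j).toNormedAddCommGroup
  let : InnerProductSpace ℝ (H j) := InnerProductSpace.ofCore (sipCore j).toCore
  have hdim : finrank ℝ (H j) = (j + 1) ^ 2 := finrank_H j
  let R : Fin 3 → H j →ₗ[ℝ] H j := fun k =>
    (ER k).toLinearMap.restrict fun p hp => ER_mem hp k
  have hR : ∀ k p, ((R k p : H j) : Poly) = ER k p := fun _ _ => rfl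
  let T : Triple (H j) j :=
    { A := R 0
      B := R 1
      C := R 2
      skew := fun u v => sip_ER 0 (u : Poly) v
      ab := fun v => Subtype.ext (ER_rel 0 (v : Poly))
      bc := fun v => Subtype.ext (ER_rel 1 (v : Poly))
      ca := fun v => Subtype.ext (ER_rel 2 (v : Poly))
      casimir := fun v => Subtype.ext <| by
        have h := casimirR v.2
        rw [Fin.sum_univ_three] at h
        simpa [hR] using h }
  obtain ⟨b, chg, hb, hle, hcard⟩ := T.exists_weight_basis hdim
  refine ⟨fun i => b i, chg, fun i => (b i).2, fun i i' => ?_, fun p hp => ?_,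
    fun i => congrArg Subtype.val (hb i), hle, hcard⟩
  · exact orthonormal_iff_ite.mp b.orthonormal i i'
  · have h : ∑ i, sip (b i : Poly) p • (b i : Poly) = p := by
      have h := congrArg Subtype.val (b.sum_repr' ⟨p, hp⟩)
      rw [Submodule.coe_sum] at h
      exact h
    simpa only [sip_comm p] using h.symm

theorem exists_harmData : Nonempty HarmData := by
  choose Y chg hmem hortho hexp hsq _ hcard using exists_adapted
  refine ⟨{
    Y := Y
    chg := chg
    mem := hmem
    ortho := fun j i j' i' => ?_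
    expand := hexp
    chg_sq := hsq
    chg_card := hcard }⟩
  rcases eq_or_ne j j' with rfl | hj
  · simp only [hortho, true_and, Fin.ext_iff]
  · rw [sip_H_ne hj (hmem j i) (hmem j' i'), if_neg (fun h => hj h.1)]

end

end Vale.Agent.P225.Sph
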