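import Vale.Agent.P225.Harm.Defs
import Mathlib.RingTheory.MvPolynomial.EulerIdentity

/-!
# P225, algebra of harmonic polynomials on `ℝ⁴`

The vector fields `EL k`, `ER k`: commutation, brackets, the Casimir identity, commutation with
the Laplacian, and the Laplacian of `|x|²ⁱ q`.
-/

open MvPolynomial Finset

namespace Vale.Agent.P225.Sph

noncomputable section

theorem EL_X (k : Fin 3) (i : Fin 4) : EL k (X i) = vecL k i := mkDerivation_X _ _ _

theorem ER_X (k : Fin 3) (i : Fin 4) : ER k (X i) = vecR k i := mkDerivation_X _ _ _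

theorem mkDerivation_apply_eq_sum (v : Fin 4 → Poly) (p : Poly) :
    mkDerivation ℝ v p = ∑ i, v i * pderiv i p := by
  have h : mkDerivation ℝ v = ∑ i, v i • (pderiv i : Derivation ℝ Poly Poly) := by
    refine derivation_ext fun j => ?_
    rw [mkDerivation_X, ← Derivation.coeFnAddMonoidHom_apply, map_sum, Finset.sum_apply]
    simp [Pi.single_apply]
  rw [h, ← Derivation.coeFnAddMonoidHom_apply, map_sum, Finset.sum_apply]
  simp

theorem EL_apply (k : Fin 3) (p : Poly) : EL k p = ∑ i, vecL k i * pderiv i p :=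
  mkDerivation_apply_eq_sum _ _

theorem ER_apply (k : Fin 3) (p : Poly) : ER k p = ∑ i, vecR k i * pderiv i p :=
  mkDerivation_apply_eq_sum _ _

theorem EL_rsq (k : Fin 3) : EL k rsq = 0 := by
  simp only [rsq, Fin.sum_univ_four, map_add, pow_two, Derivation.leibniz, EL_X, smul_eq_mul]
  fin_cases k <;> simp [vecL] <;> ring

theorem ER_rsq (k : Fin 3) : ER k rsq = 0 := by
  simp only [rsq, Fin.sum_univ_four, map_add, pow_two, Derivation.leibniz, ER_X, smul_eq_mul]
  fin_cases k <;> simp [vecR] <;> ring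

theorem EL_ER_comm (k l : Fin 3) (p : Poly) : EL k (ER l p) = ER l (EL k p) := by
  have h : ⁅EL k, ER l⁆ = 0 := by
    refine derivation_ext fun i => ?_
    rw [Derivation.commutator_apply, EL_X, ER_X]
    fin_cases k <;> fin_cases l <;> fin_cases i <;> simp [vecL, vecR, EL_X, ER_X]
  have := congrArg (fun D : Derivation ℝ Poly Poly => D p) h
  simpa [Derivation.commutator_apply, sub_eq_zero] using this

theorem ER_bracket (p : Poly) :
    ER 0 (ER 1 p) - ER 1 (ER 0 p) = 2 • ER 2 p ∧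
    ER 1 (ER 2 p) - ER 2 (ER 1 p) = 2 • ER 0 p ∧
    ER 2 (ER 0 p) - ER 0 (ER 2 p) = 2 • ER 1 p := by
  have h : ∀ a b c : Fin 3, (∀ i, ER a (vecR b i) - ER b (vecR a i) = 2 • vecR c i) →
      ER a (ER b p) - ER b (ER a p) = 2 • ER c p := by
    intro a b c hi
    have h : ⁅ER a, ER b⁆ = 2 • ER c := by
      refine derivation_ext fun i => ?_
      rw [Derivation.commutator_apply, Derivation.smul_apply, ER_X, ER_X, ER_X, hi]
    have := congrArg (fun D : Derivation ℝ Poly Poly => D p) h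
    simpa only [Derivation.commutator_apply, Derivation.smul_apply] using this
  refine ⟨h 0 1 2 fun i => ?_, h 1 2 0 fun i => ?_, h 2 0 1 fun i => ?_⟩ <;>
    fin_cases i <;> simp [vecR, ER_X] <;> ring

theorem EL_bracket (p : Poly) :
    EL 0 (EL 1 p) - EL 1 (EL 0 p) = -(2 • EL 2 p) ∧
    EL 1 (EL 2 p) - EL 2 (EL 1 p) = -(2 • EL 0 p) ∧
    EL 2 (EL 0 p) - EL 0 (EL 2 p) = -(2 • EL 1 p) := by
  have h : ∀ a b c : Fin 3, (∀ i, EL a (vecL b i) - EL b (vecL a i) = -(2 • vecL c i)) →
      EL a (EL b p) - EL b (EL a p) = -(2 • EL c p) := by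
    intro a b c hi
    have h : ⁅EL a, EL b⁆ = -(2 • EL c) := by
      refine derivation_ext fun i => ?_
      rw [Derivation.commutator_apply, Derivation.neg_apply, Derivation.smul_apply, EL_X, EL_X,
        EL_X, hi]
    have := congrArg (fun D : Derivation ℝ Poly Poly => D p) h
    simpa only [Derivation.commutator_apply, Derivation.neg_apply, Derivation.smul_apply] using this
  refine ⟨h 0 1 2 fun i => ?_, h 1 2 0 fun i => ?_, h 2 0 1 fun i => ?_⟩ <;>
    fin_cases i <;> simp [vecL, EL_X] <;> ring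

/-- The right brackets, cyclically. -/
theorem ER_rel (k : Fin 3) (p : Poly) :
    ER k (ER (k + 1) p) - ER (k + 1) (ER k p) = (2 : ℝ) • ER (k + 2) p := by
  obtain ⟨h₀, h₁, h₂⟩ := ER_bracket p
  rw [two_smul ℕ, ← two_smul ℝ] at h₀ h₁ h₂
  match k with
  | 0 => exact h₀
  | 1 => exact h₁
  | 2 => exact h₂

/-- The left brackets, cyclically. -/
theorem EL_rel (k : Fin 3) (p : Poly) :
    EL k (EL (k + 1) p) - EL (k + 1) (EL k p) = (-2 : ℝ) • EL (k + 2) p := by
  obtain ⟨h₀, h₁, h₂⟩ := EL_bracket p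
  rw [two_smul ℕ, ← two_smul ℝ, ← neg_smul] at h₀ h₁ h₂
  match k with
  | 0 => exact h₀
  | 1 => exact h₁
  | 2 => exact h₂

/-! ### The Laplacian -/

theorem lap_apply (p : Poly) : lap p = ∑ i, pderiv i (pderiv i p) := by
  simp [lap]

theorem pderiv_pderiv_comm (i j : Fin 4) (p : Poly) :
    pderiv i (pderiv j p) = pderiv j (pderiv i p) := by
  have h : ⁅(pderiv i : Derivation ℝ Poly Poly), (pderiv j : Derivation ℝ Poly Poly)⁆ = 0 := by
    refine derivation_ext fun l => ?_
    rw [Derivation.commutator_apply, pderiv_X, pderiv_X]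
    rcases eq_or_ne j l with h | h <;> rcases eq_or_ne i l with h' | h' <;> simp [h, h']
  have := congrArg (fun D : Derivation ℝ Poly Poly => D p) h
  simpa [Derivation.commutator_apply, sub_eq_zero] using this

theorem lap_mul (f g : Poly) :
    lap (f * g) = lap f * g + 2 * ∑ i, pderiv i f * pderiv i g + f * lap g := by
  simp only [lap_apply, pderiv_mul, map_add, Finset.sum_add_distrib, Finset.mul_sum,
    Finset.sum_mul]
  simp only [two_mul, Finset.sum_add_distrib]
  ring

theorem lap_pderiv (i : Fin 4) (p : Poly) : lap (pderiv i p) = pderiv i (lap p) := by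
  simp only [lap_apply, map_sum]
  exact Finset.sum_congr rfl fun j _ => by
    rw [pderiv_pderiv_comm j i p, pderiv_pderiv_comm j i (pderiv j p)]

theorem lap_X_mul (a : Fin 4) (q : Poly) : lap (X a * q) = X a * lap q + 2 * pderiv a q := by
  have h : lap (X a : Poly) = 0 := by
    rw [lap_apply]
    exact Finset.sum_eq_zero fun i _ => by
      rcases eq_or_ne i a with h | h <;> simp [h, pderiv_X]
  rw [lap_mul, h, Finset.sum_eq_single a (fun i _ hi => by simp [Ne.symm hi]) (by simp)]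
  simp [add_comm]

theorem lap_EL (k : Fin 3) (p : Poly) : lap (EL k p) = EL k (lap p) := by
  fin_cases k <;>
    simp [EL_apply, Fin.sum_univ_four, vecL, lap_X_mul, lap_pderiv, pderiv_pderiv_comm 1 0,
      pderiv_pderiv_comm 2 0, pderiv_pderiv_comm 3 0, pderiv_pderiv_comm 2 1,
      pderiv_pderiv_comm 3 1, pderiv_pderiv_comm 3 2] <;>
    ring

theorem lap_ER (k : Fin 3) (p : Poly) : lap (ER k p) = ER k (lap p) := by
  fin_cases k <;>
    simp [ER_apply, Fin.sum_univ_four, vecR, lap_X_mul, lap_pderiv, pderiv_pderiv_comm 1 0,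
      pderiv_pderiv_comm 2 0, pderiv_pderiv_comm 3 0, pderiv_pderiv_comm 2 1,
      pderiv_pderiv_comm 3 1, pderiv_pderiv_comm 3 2] <;>
    ring

theorem isHomogeneous_vecL (k : Fin 3) (i : Fin 4) : (vecL k i).IsHomogeneous 1 := by
  fin_cases k <;> fin_cases i <;>
    first
      | exact isHomogeneous_X _ _
      | exact (isHomogeneous_X _ _).neg

theorem isHomogeneous_vecR (k : Fin 3) (i : Fin 4) : (vecR k i).IsHomogeneous 1 := by
  fin_cases k <;> fin_cases i <;>
    first
      | exact isHomogeneous_X _ _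
      | exact (isHomogeneous_X _ _).neg

theorem isHomogeneous_vec_mul_pderiv {v p : Poly} {n : ℕ} (hv : v.IsHomogeneous 1)
    (hp : p.IsHomogeneous n) (i : Fin 4) : (v * pderiv i p).IsHomogeneous n := by
  obtain _ | n := n
  · rw [← totalDegree_zero_iff_isHomogeneous, totalDegree_eq_zero_iff_eq_C] at hp
    rw [hp, pderiv_C, mul_zero]
    exact isHomogeneous_zero _ _ _
  · have h := hv.mul (hp.pderiv (i := i))
    rwa [Nat.add_sub_cancel, Nat.add_comm] at h

theorem EL_isHomogeneous {p : Poly} {n : ℕ} (hp : p.IsHomogeneous n) (k : Fin 3) :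
    (EL k p).IsHomogeneous n := by
  rw [EL_apply]
  exact IsHomogeneous.sum _ _ _ fun i _ =>
    isHomogeneous_vec_mul_pderiv (isHomogeneous_vecL k i) hp i

theorem ER_isHomogeneous {p : Poly} {n : ℕ} (hp : p.IsHomogeneous n) (k : Fin 3) :
    (ER k p).IsHomogeneous n := by
  rw [ER_apply]
  exact IsHomogeneous.sum _ _ _ fun i _ =>
    isHomogeneous_vec_mul_pderiv (isHomogeneous_vecR k i) hp i

theorem mem_H {j : ℕ} {p : Poly} : p ∈ H j ↔ p.IsHomogeneous j ∧ lap p = 0 := by
  simp [H, Submodule.mem_inf, mem_homogeneousSubmodule]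

theorem EL_mem {j : ℕ} {p : Poly} (hp : p ∈ H j) (k : Fin 3) : EL k p ∈ H j := by
  rw [mem_H] at hp ⊢
  exact ⟨EL_isHomogeneous hp.1 k, by rw [lap_EL, hp.2, map_zero]⟩

theorem ER_mem {j : ℕ} {p : Poly} (hp : p ∈ H j) (k : Fin 3) : ER k p ∈ H j := by
  rw [mem_H] at hp ⊢
  exact ⟨ER_isHomogeneous hp.1 k, by rw [lap_ER, hp.2, map_zero]⟩

/-! ### Euler field and Casimir -/

/-- The Euler vector field `∑ xᵢ ∂ᵢ`. -/
def euler : Derivation ℝ Poly Poly := mkDerivation ℝ fun i => X i

theorem euler_apply (p : Poly) : euler p = ∑ i, X i * pderiv i p :=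
  mkDerivation_apply_eq_sum _ _

theorem euler_homogeneous {p : Poly} {n : ℕ} (hp : p.IsHomogeneous n) :
    euler p = (n : ℝ) • p := by
  rw [euler_apply, hp.sum_X_mul_pderiv, Nat.cast_smul_eq_nsmul]

theorem casimirL_eq (p : Poly) :
    ∑ k, EL k (EL k p) = rsq * lap p - euler (euler p) - 2 * euler p := by
  simp [Fin.sum_univ_three, EL_apply, euler_apply, lap_apply, Fin.sum_univ_four, rsq, vecL,
    pderiv_X, pderiv_pderiv_comm 1 0, pderiv_pderiv_comm 2 0, pderiv_pderiv_comm 3 0,
    pderiv_pderiv_comm 2 1, pderiv_pderiv_comm 3 1, pderiv_pderiv_comm 3 2]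
  ring

theorem casimirR_eq (p : Poly) :
    ∑ k, ER k (ER k p) = rsq * lap p - euler (euler p) - 2 * euler p := by
  simp [Fin.sum_univ_three, ER_apply, euler_apply, lap_apply, Fin.sum_univ_four, rsq, vecR,
    pderiv_X, pderiv_pderiv_comm 1 0, pderiv_pderiv_comm 2 0, pderiv_pderiv_comm 3 0,
    pderiv_pderiv_comm 2 1, pderiv_pderiv_comm 3 1, pderiv_pderiv_comm 3 2]
  ring

theorem casimir_rhs {j : ℕ} {p : Poly} (hp : p ∈ H j) :
    rsq * lap p - euler (euler p) - 2 * euler p = -((j : ℝ) * (j + 2)) • p := by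
  rw [mem_H] at hp
  rw [hp.2, euler_homogeneous hp.1, Derivation.map_smul, euler_homogeneous hp.1]
  simp only [smul_eq_C_mul, mul_zero, map_neg, map_mul, map_add, map_ofNat]
  ring

theorem casimirL {j : ℕ} {p : Poly} (hp : p ∈ H j) :
    ∑ k, EL k (EL k p) = -((j : ℝ) * (j + 2)) • p := by
  rw [casimirL_eq, casimir_rhs hp]

theorem casimirR {j : ℕ} {p : Poly} (hp : p ∈ H j) :
    ∑ k, ER k (ER k p) = -((j : ℝ) * (j + 2)) • p := by
  rw [casimirR_eq, casimir_rhs hp]

/-! ### Powers of `|x|²` -/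

theorem pderiv_rsq (i : Fin 4) : pderiv i rsq = 2 * X i := by
  simp only [rsq, Fin.sum_univ_four, map_add, pderiv_pow, pderiv_X, Nat.cast_ofNat]
  fin_cases i <;> simp

theorem lap_rsq : lap rsq = 8 := by
  have h (i : Fin 4) : pderiv i (2 * X i : Poly) = 2 := by
    rw [two_mul, map_add, pderiv_X_self]; norm_num
  simp only [lap_apply, pderiv_rsq, h, Fin.sum_univ_four]
  norm_num

theorem lap_rsq_mul {q : Poly} {n : ℕ} (hq : q.IsHomogeneous n) :
    lap (rsq * q) = rsq * lap q + (8 + 4 * (n : ℝ)) • q := by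
  have h : ∑ i, pderiv i rsq * pderiv i q = 2 * euler q := by
    rw [euler_apply, Finset.mul_sum]
    exact Finset.sum_congr rfl fun i _ => by rw [pderiv_rsq, mul_assoc]
  rw [lap_mul, h, lap_rsq, euler_homogeneous hq]
  simp only [smul_eq_C_mul, map_add, map_mul, map_ofNat]
  ring

end

end Vale.Agent.P225.Sph
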