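import Vale.Agent.P225.Harm.Eval

/-!
P225, module Harm: the mean over the sphere; the fields `x q`, `q x` are antisymmetric.
-/

namespace Vale.Agent.P225.Sph

open MvPolynomial MeasureTheory Filter
open scoped RealInnerProductSpace Topology

noncomputable section

/-- The radial projection to the sphere. -/
def rad (x : R4) : R4 := ‖x‖⁻¹ • x

lemma norm_rad_le (x : R4) : ‖rad x‖ ≤ 1 := by
  rcases eq_or_ne x 0 with rfl | hx
  · simp [rad]
  · simp [rad, norm_smul, norm_ne_zero_iff.2 hx]

lemma norm_rad {x : R4} (hx : x ≠ 0) : ‖rad x‖ = 1 := by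
  simp [rad, norm_smul, norm_ne_zero_iff.2 hx]

lemma measurable_rad : Measurable rad := by unfold rad; fun_prop

/-- The unit ball carrying the mean. -/
def ball4 : Measure R4 := (volume : Measure R4).restrict (Metric.closedBall 0 1)

instance : IsFiniteMeasure ball4 := by
  unfold ball4
  exact isFiniteMeasure_restrict.2 (isCompact_closedBall _ _).measure_lt_top.ne

lemma ball4_pos : 0 < ball4.real Set.univ := by
  rw [ball4, measureReal_restrict_apply_univ, measureReal_def]
  refine ENNReal.toReal_pos ?_ (isCompact_closedBall _ _).measure_lt_top.ne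
  exact (Metric.measure_closedBall_pos volume _ one_pos).ne'

lemma avg_eq (f : R4 → ℝ) : avg f = (ball4.real Set.univ)⁻¹ * ∫ x, f (rad x) ∂ball4 := by
  rw [avg, setAverage_eq, smul_eq_mul, ball4, measureReal_restrict_apply_univ]
  rfl

lemma integrable_rad {f : R4 → ℝ} (hf : Continuous f) :
    Integrable (fun x => f (rad x)) ball4 := by
  obtain ⟨C, hC⟩ := (isCompact_closedBall (0 : R4) 1).exists_bound_of_continuousOn hf.continuousOn
  exact Integrable.of_bound (hf.measurable.comp measurable_rad).aestronglyMeasurable C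
    (Eventually.of_forall fun x => hC _ (by simpa using norm_rad_le x))

lemma avg_add {f g : R4 → ℝ} (hf : Continuous f) (hg : Continuous g) :
    avg (fun x => f x + g x) = avg f + avg g := by
  simp only [avg_eq, integral_add (integrable_rad hf) (integrable_rad hg), mul_add]

lemma avg_const_mul (c : ℝ) (f : R4 → ℝ) : avg (fun x => c * f x) = c * avg f := by
  simp only [avg_eq, integral_const_mul]; ring

lemma avg_sum {ι : Type*} (s : Finset ι) {f : ι → R4 → ℝ} (hf : ∀ i ∈ s, Continuous (f i)) :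
    avg (fun x => ∑ i ∈ s, f i x) = ∑ i ∈ s, avg (f i) := by
  simp only [avg_eq, integral_finsetSum s fun i hi => integrable_rad (hf i hi), Finset.mul_sum]

lemma avg_const (c : ℝ) : avg (fun _ => c) = c := by
  rw [avg_eq, integral_const, smul_eq_mul, ← mul_assoc, inv_mul_cancel₀ ball4_pos.ne', one_mul]

lemma ae_ne_zero : ∀ᵐ x ∂ball4, x ≠ (0 : R4) := by
  refine ae_restrict_of_ae ?_
  exact (measure_eq_zero_iff_ae_notMem.1 (measure_singleton (0 : R4))).mono fun x hx h => hx (by simp [h])

lemma avg_congr {f g : R4 → ℝ} (h : ∀ x : R4, ‖x‖ = 1 → f x = g x) : avg f = avg g := by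
  rw [avg_eq, avg_eq]
  congr 1
  exact integral_congr_ae (ae_ne_zero.mono fun x hx => h _ (norm_rad hx))

lemma avg_nonneg {f : R4 → ℝ} (hf : ∀ x, ‖x‖ = 1 → 0 ≤ f x) : 0 ≤ avg f := by
  rw [avg_eq]
  exact mul_nonneg (inv_nonneg.2 measureReal_nonneg)
    (integral_nonneg_of_ae (ae_ne_zero.mono fun x hx => hf _ (norm_rad hx)))

lemma avg_mono {f g : R4 → ℝ} (hf : Continuous f) (hg : Continuous g)
    (h : ∀ x, ‖x‖ = 1 → f x ≤ g x) : avg f ≤ avg g := by
  rw [avg_eq, avg_eq]
  exact mul_le_mul_of_nonneg_left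
    (integral_mono_ae (integrable_rad hf) (integrable_rad hg)
      (ae_ne_zero.mono fun x hx => h _ (norm_rad hx))) (inv_nonneg.2 measureReal_nonneg)

lemma eq_zero_of_avg_eq_zero {f : R4 → ℝ} (hf : Continuous f) (h0 : ∀ x, ‖x‖ = 1 → 0 ≤ f x)
    (h : avg f = 0) {x : R4} (hx : ‖x‖ = 1) : f x = 0 := by
  by_contra hne
  have hpos : 0 < f x := lt_of_le_of_ne (h0 x hx) (Ne.symm hne)
  have hint : ∫ y, f (rad y) ∂ball4 = 0 := by
    rw [avg_eq] at h
    exact (mul_eq_zero.1 h).resolve_left (inv_ne_zero ball4_pos.ne')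
  have hae : (fun y => f (rad y)) =ᵐ[ball4] 0 :=
    (integral_eq_zero_iff_of_nonneg_ae (ae_ne_zero.mono fun y hy => h0 _ (norm_rad hy))
      (integrable_rad hf)).1 hint
  have hx0 : (2 : ℝ)⁻¹ • x ≠ 0 := by
    intro h2
    have := congrArg norm h2
    simp [norm_smul, hx] at this
  have hcont : ContinuousAt (fun y => f (rad y)) ((2 : ℝ)⁻¹ • x) :=
    hf.continuousAt.comp ((continuousAt_id.norm.inv₀ (by simpa using hx0)).smul continuousAt_id)
  have hrad : rad ((2 : ℝ)⁻¹ • x) = x := by
    simp [rad, norm_smul, hx, smul_smul]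
  have hnear : ∀ᶠ y in 𝓝 ((2 : ℝ)⁻¹ • x), f (rad y) ≠ 0 ∧ y ∈ Metric.ball (0 : R4) 1 := by
    refine (hcont.eventually_ne (by simpa [hrad] using hne)).and (Metric.isOpen_ball.eventually_mem ?_)
    simp [norm_smul, hx]
    norm_num
  obtain ⟨U, hU, hUo, hxU⟩ := eventually_nhds_iff.1 hnear
  have hz : ball4 U = 0 := by
    refine measure_mono_null (fun y hy => ?_) (ae_iff.1 hae)
    exact (hU y hy).1
  rw [ball4, Measure.restrict_apply hUo.measurableSet,
    Set.inter_eq_left.2 fun y hy => Metric.ball_subset_closedBall (hU y hy).2] at hz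
  exact (hUo.measure_pos volume ⟨_, hxU⟩).ne' hz

lemma avg_comp (O : R4 ≃ₗᵢ[ℝ] R4) (f : R4 → ℝ) : avg (fun x => f (O x)) = avg f := by
  rw [avg_eq, avg_eq]
  congr 1
  have hpre : O ⁻¹' Metric.closedBall (0 : R4) 1 = Metric.closedBall 0 1 := by
    ext y; simp
  have h := O.measurePreserving.setIntegral_preimage_emb
    O.toHomeomorph.measurableEmbedding (fun y => f (rad y)) (Metric.closedBall 0 1)
  rw [hpre] at h
  rw [ball4, ← h]
  refine integral_congr_ae (Eventually.of_forall fun y => ?_)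
  simp [rad]

/-- The turn by the angle `t` along a skew complex structure. -/
def turn (A : R4 →L[ℝ] R4) (t : ℝ) : R4 →L[ℝ] R4 :=
  Real.cos t • ContinuousLinearMap.id ℝ R4 + Real.sin t • A

lemma norm_turn {A : R4 →L[ℝ] R4} (hA : ∀ x, ⟪x, A x⟫ = 0) (hn : ∀ x, ‖A x‖ = ‖x‖) (t : ℝ)
    (x : R4) : ‖turn A t x‖ = ‖x‖ := by
  rw [← sq_eq_sq₀ (norm_nonneg _) (norm_nonneg _)]
  simp only [turn, ContinuousLinearMap.add_apply, FunLike.coe_smul,
    ContinuousLinearMap.coe_id', Pi.smul_apply, id]
  rw [norm_add_sq_real, norm_smul, norm_smul, inner_smul_left, inner_smul_right, hA, hn]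
  simp only [mul_pow, Real.norm_eq_abs, sq_abs]
  simp
  linear_combination ‖x‖ ^ 2 * Real.cos_sq_add_sin_sq t

lemma hasDerivAt_turn (A : R4 →L[ℝ] R4) (x : R4) (t : ℝ) :
    HasDerivAt (fun s => turn A s x) (-Real.sin t • x + Real.cos t • A x) t := by
  simp only [turn, ContinuousLinearMap.add_apply, FunLike.coe_smul,
    ContinuousLinearMap.coe_id', Pi.smul_apply, id]
  exact ((Real.hasDerivAt_cos t).smul_const x).add ((Real.hasDerivAt_sin t).smul_const (A x))

/-- Differentiation under the mean. -/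
lemma avg_deriv_const {F D : ℝ → R4 → ℝ} (hF : ∀ t, Continuous (F t))
    (hD : Continuous (Function.uncurry D)) (hd : ∀ z t, HasDerivAt (fun s => F s z) (D t z) t)
    (hc : ∀ t, avg (F t) = avg (F 0)) : avg (D 0) = 0 := by
  obtain ⟨C, hC⟩ := ((isCompact_Icc (a := (-1 : ℝ)) (b := 1)).prod
    (isCompact_closedBall (0 : R4) 1)).exists_bound_of_continuousOn hD.continuousOn
  have hFm : ∀ t, AEStronglyMeasurable (fun x => F t (rad x)) ball4 := fun t =>
    (integrable_rad (hF t)).aestronglyMeasurable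
  have hD0 : Continuous (D 0) := hD.comp (Continuous.prodMk_right 0)
  have hb : ∀ᵐ x ∂ball4, ∀ t ∈ Set.Icc (-1 : ℝ) 1, ‖D t (rad x)‖ ≤ C :=
    Eventually.of_forall fun x t ht => hC (t, rad x) ⟨ht, by simpa using norm_rad_le x⟩
  have h := (hasDerivAt_integral_of_dominated_loc_of_deriv_le (μ := ball4) (bound := fun _ => C)
    (F := fun t x => F t (rad x)) (F' := fun t x => D t (rad x)) (x₀ := (0 : ℝ))
    (Icc_mem_nhds (by norm_num : (-1 : ℝ) < 0) (by norm_num : (0 : ℝ) < 1))
    (Eventually.of_forall hFm) (integrable_rad (hF 0))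
    (integrable_rad hD0).aestronglyMeasurable hb
    (integrable_const C) (Eventually.of_forall fun x t _ => hd (rad x) t)).2
  have hconst : ∀ t, ∫ x, F t (rad x) ∂ball4 = ∫ x, F 0 (rad x) ∂ball4 := fun t => by
    have h1 := hc t
    rw [avg_eq, avg_eq] at h1
    exact mul_left_cancel₀ (inv_ne_zero ball4_pos.ne') h1
  have h0 : ∫ x, D 0 (rad x) ∂ball4 = 0 := by
    refine h.unique ?_
    simp only [hconst]
    exact hasDerivAt_const _ _
  rw [avg_eq, h0, mul_zero]

lemma continuous_turn_uncurry (A : R4 →L[ℝ] R4) :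
    Continuous fun q : ℝ × R4 => turn A q.1 q.2 := by
  simp only [turn, add_apply, FunLike.coe_smul, ContinuousLinearMap.coe_id', Pi.smul_apply, id]
  fun_prop

/-- The derivative of a function along a skew complex structure has mean zero. -/
theorem avg_fderiv_skew {A : R4 →L[ℝ] R4} (hA : ∀ x, ⟪x, A x⟫ = 0) (hn : ∀ x, ‖A x‖ = ‖x‖)
    {f : R4 → ℝ} (hf : ContDiff ℝ 1 f) : avg (fun x => fderiv ℝ f x (A x)) = 0 := by
  have hc : Continuous (fderiv ℝ f) := hf.continuous_fderiv one_ne_zero
  have h := avg_deriv_const (F := fun t z => f (turn A t z))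
    (D := fun t z => fderiv ℝ f (turn A t z) (-Real.sin t • z + Real.cos t • A z))
    (fun t => hf.continuous.comp (turn A t).continuous)
    ((hc.comp (continuous_turn_uncurry A)).clm_apply (by fun_prop))
    (fun z t => ((hf.differentiable one_ne_zero _).hasFDerivAt).comp_hasDerivAt t
      (hasDerivAt_turn A z t))
    (fun t => by
      let li : R4 →ₗᵢ[ℝ] R4 := ⟨(turn A t).toLinearMap, norm_turn hA hn t⟩
      have e : ∀ x, turn A 0 x = x := fun x => by simp [turn]
      have h := avg_comp (li.toLinearIsometryEquiv rfl) f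
      simp only [e]
      exact h)
  refine (avg_congr fun x _ => ?_).trans h
  simp [turn]

lemma avg_EL (k : Fin 3) (p : Poly) : avg (ev (EL k p)) = 0 := by
  obtain ⟨A, hA⟩ := exists_linear_qL k
  have h := avg_fderiv_skew (A := A) (fun x => by rw [hA]; exact inner_qL k x)
    (fun x => by rw [hA]; exact norm_qL k x) (contDiff_ev p)
  simpa only [hA, fderiv_qL] using h

lemma avg_ER (k : Fin 3) (p : Poly) : avg (ev (ER k p)) = 0 := by
  obtain ⟨A, hA⟩ := exists_linear_qR k
  have h := avg_fderiv_skew (A := A) (fun x => by rw [hA]; exact inner_qR k x)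
    (fun x => by rw [hA]; exact norm_qR k x) (contDiff_ev p)
  simpa only [hA, fderiv_qR] using h

lemma sip_eq (p q : Poly) : sip p q = avg (ev (p * q)) := by
  exact avg_congr fun x _ => (ev_mul p q x).symm

lemma sip_comm (p q : Poly) : sip p q = sip q p := by
  exact avg_congr fun x _ => mul_comm _ _

lemma sip_add_left (p q r : Poly) : sip (p + q) r = sip p r + sip q r := by
  simp only [sip, ev_add, add_mul]
  exact avg_add (by fun_prop) (by fun_prop)

lemma sip_smul_left (c : ℝ) (p r : Poly) : sip (c • p) r = c * sip p r := by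
  simp only [sip, ev_smul, mul_assoc, avg_const_mul]

lemma sip_add_right (p q r : Poly) : sip p (q + r) = sip p q + sip p r := by
  rw [sip_comm, sip_add_left, sip_comm q, sip_comm r]

lemma sip_smul_right (c : ℝ) (p r : Poly) : sip p (c • r) = c * sip p r := by
  rw [sip_comm, sip_smul_left, sip_comm r]

lemma sip_zero_left (r : Poly) : sip 0 r = 0 := by simp [sip, avg_const]

lemma sip_zero_right (r : Poly) : sip r 0 = 0 := by simp [sip, avg_const]

lemma sip_sum_left {ι : Type*} (s : Finset ι) (p : ι → Poly) (r : Poly) :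
    sip (∑ i ∈ s, p i) r = ∑ i ∈ s, sip (p i) r := by
  simp only [sip, ev_sum, Finset.sum_mul]
  exact avg_sum _ fun i _ => by fun_prop

lemma sip_sum_right {ι : Type*} (s : Finset ι) (p : ι → Poly) (r : Poly) :
    sip r (∑ i ∈ s, p i) = ∑ i ∈ s, sip r (p i) := by
  rw [sip_comm, sip_sum_left]; simp only [sip_comm r]

lemma sip_self_nonneg (p : Poly) : 0 ≤ sip p p := avg_nonneg fun _ _ => mul_self_nonneg _

lemma ev_eq_zero_of_sip {p : Poly} (h : sip p p = 0) {x : R4} (hx : ‖x‖ = 1) : ev p x = 0 :=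
  mul_self_eq_zero.1 (eq_zero_of_avg_eq_zero (f := fun y => ev p y * ev p y) (by fun_prop)
    (fun _ _ => mul_self_nonneg _) h hx)

lemma sip_EL (k : Fin 3) (p q : Poly) : sip (EL k p) q = -sip p (EL k q) := by
  have h := avg_EL k (p * q)
  rw [Derivation.leibniz, smul_eq_mul, smul_eq_mul] at h
  rw [show ev (p * EL k q + q * EL k p) = fun x => ev p x * ev (EL k q) x + ev q x * ev (EL k p) x
    from funext fun x => by simp, avg_add (by fun_prop) (by fun_prop)] at h
  change sip p (EL k q) + sip q (EL k p) = 0 at h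
  rw [sip_comm q] at h
  linarith

lemma sip_ER (k : Fin 3) (p q : Poly) : sip (ER k p) q = -sip p (ER k q) := by
  have h := avg_ER k (p * q)
  rw [Derivation.leibniz, smul_eq_mul, smul_eq_mul] at h
  rw [show ev (p * ER k q + q * ER k p) = fun x => ev p x * ev (ER k q) x + ev q x * ev (ER k p) x
    from funext fun x => by simp, avg_add (by fun_prop) (by fun_prop)] at h
  change sip p (ER k q) + sip q (ER k p) = 0 at h
  rw [sip_comm q] at h
  linarith

lemma sip_cauchy (p q : Poly) : sip p q ^ 2 ≤ sip p p * sip q q := by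
  have h : ∀ c : ℝ, 0 ≤ sip q q * (c * c) + 2 * sip p q * c + sip p p := fun c => by
    have := sip_self_nonneg (p + c • q)
    simp only [sip_add_left, sip_add_right, sip_smul_left, sip_smul_right, sip_comm q p] at this
    linarith
  have := discrim_le_zero h
  simp only [discrim] at this
  linarith

/-- Multiplication by `f` is bounded by the supremum of `f` on the sphere. -/
lemma abs_sip_mul_le {f p q : Poly} {B : ℝ} (hB : ∀ x : R4, ‖x‖ = 1 → |ev f x| ≤ B) :
    |sip p (f * q)| ≤ B * Real.sqrt (sip p p) * Real.sqrt (sip q q) := by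
  have hB0 : 0 ≤ B := (abs_nonneg _).trans (hB (EuclideanSpace.single 0 1) (by simp))
  have h1 : sip (f * q) (f * q) ≤ B ^ 2 * sip q q := by
    simp only [sip, ← avg_const_mul, ev_mul]
    refine avg_mono (by fun_prop) (by fun_prop) fun x hx => ?_
    have : ev f x ^ 2 ≤ B ^ 2 := by
      rw [← sq_abs (ev f x)]; exact pow_le_pow_left₀ (abs_nonneg _) (hB x hx) 2
    nlinarith [mul_self_nonneg (ev q x), this]
  refine abs_le_of_sq_le_sq ?_ (by positivity)
  rw [mul_pow, mul_pow, Real.sq_sqrt (sip_self_nonneg p), Real.sq_sqrt (sip_self_nonneg q)]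
  calc sip p (f * q) ^ 2 ≤ sip p p * sip (f * q) (f * q) := sip_cauchy _ _
    _ ≤ sip p p * (B ^ 2 * sip q q) := mul_le_mul_of_nonneg_left h1 (sip_self_nonneg p)
    _ = B ^ 2 * sip p p * sip q q := by ring

end

end Vale.Agent.P225.Sph
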