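import Vale.Agent.P225.Harm.Eval

/-!
# P225, the zonal vector generates each degree under the left fields

Polynomials vanishing to every order at the quaternion one are zero; a space of harmonics which is
stable under the left fields and vanishes at one vanishes there to every order, because the left
fields at one are the three coordinate directions tangent to the sphere and the radial derivative
is the degree.
-/

open MvPolynomial Finset
open scoped RealInnerProductSpace

namespace Vale.Agent.P225.Sph

noncomputable section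

/-- Vanishing to order `n` at the quaternion one. -/
def Vanish : ℕ → Poly → Prop
  | 0, p => ev p qone = 0
  | n + 1, p => Vanish n p ∧ ∀ a, Vanish n (pderiv a p)

theorem vanish_zero : ∀ n, Vanish n 0
  | 0 => by simp [Vanish]
  | n + 1 => ⟨vanish_zero n, fun a => by rw [map_zero]; exact vanish_zero n⟩

theorem Vanish.add : ∀ {n : ℕ} {p q : Poly}, Vanish n p → Vanish n q → Vanish n (p + q)
  | 0, p, q, hp, hq => by simp_all [Vanish]
  | n + 1, p, q, hp, hq =>
    ⟨hp.1.add hq.1, fun a => by rw [map_add]; exact (hp.2 a).add (hq.2 a)⟩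

theorem Vanish.sum {n : ℕ} {ι : Type*} {s : Finset ι} {f : ι → Poly}
    (h : ∀ i ∈ s, Vanish n (f i)) : Vanish n (∑ i ∈ s, f i) :=
  Finset.sum_induction _ _ (fun _ _ => Vanish.add) (vanish_zero n) h

theorem Vanish.mul : ∀ {n : ℕ} (f : Poly) {p : Poly}, Vanish n p → Vanish n (f * p)
  | 0, f, p, hp => by simp_all [Vanish]
  | n + 1, f, p, hp =>
    ⟨hp.1.mul f, fun a => by
      rw [pderiv_mul]; exact (hp.1.mul (pderiv a f)).add ((hp.2 a).mul f)⟩

theorem Vanish.sub {n : ℕ} {p q : Poly} (hp : Vanish n p) (hq : Vanish n q) :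
    Vanish n (p - q) := by
  simpa [sub_eq_add_neg] using hp.add (hq.mul (-1))

theorem Vanish.mul_vanishing : ∀ {n : ℕ} {g q : Poly}, ev g qone = 0 → Vanish n q →
    Vanish (n + 1) (g * q)
  | 0, g, q, hg, hq => ⟨by simp_all [Vanish], fun a => by simp_all [Vanish]⟩
  | n + 1, g, q, hg, hq =>
    ⟨hq.mul g, fun a => by
      rw [pderiv_mul]; exact (hq.mul (pderiv a g)).add (Vanish.mul_vanishing hg (hq.2 a))⟩

theorem vanish_weighted {n : ℕ} {f p : Poly} {a : Fin 4} (hp : Vanish n p)
    (hf : ev f qone = 0) : Vanish n (f * pderiv a p) := by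
  cases n with
  | zero => simp [Vanish, hf]
  | succ n => exact Vanish.mul_vanishing hf (hp.2 a)

/-- Values of the left fields and of the Euler field at one determine all first derivatives. -/
theorem vanish_pderiv {n : ℕ} {p : Poly} (hp : Vanish n p)
    (hE : Vanish n (euler p)) (hL : ∀ k, Vanish n (EL k p)) (a : Fin 4) :
    Vanish n (pderiv a p) := by
  have hsum : ∀ (w : Fin 4 → Poly), Vanish n (∑ b, w b * pderiv b p) →
      (∀ b, b ≠ a → ev (w b) qone = 0) → ev (w a) qone = 1 → Vanish n (pderiv a p) := by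
    intro w hw hoff hdiag
    have hrest : Vanish n (∑ b ∈ univ.erase a, w b * pderiv b p) :=
      Vanish.sum fun b hb => vanish_weighted hp (hoff b (mem_erase.mp hb).1)
    have hlast : Vanish n ((w a - 1) * pderiv a p) := vanish_weighted hp (by simp [hdiag])
    have h := (hw.sub hrest).sub hlast
    rwa [← add_sum_erase _ _ (mem_univ a), add_sub_cancel_right, sub_mul, one_mul,
      sub_sub_cancel] at h
  rw [euler_apply] at hE
  simp only [EL_apply] at hL
  fin_cases a
  · refine hsum _ hE (fun b hb => ?_) ?_ <;> [fin_cases b; skip] <;> simp_all [qone]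
  · refine hsum _ (hL 0) (fun b hb => ?_) ?_ <;> [fin_cases b; skip] <;>
      simp_all [qone, vecL]
  · refine hsum _ (hL 1) (fun b hb => ?_) ?_ <;> [fin_cases b; skip] <;>
      simp_all [qone, vecL]
  · refine hsum _ (hL 2) (fun b hb => ?_) ?_ <;> [fin_cases b; skip] <;>
      simp_all [qone, vecL]

theorem eq_zero_of_vanish {j : ℕ} :
    ∀ {p : Poly}, p.IsHomogeneous j → (∀ n, Vanish n p) → p = 0 := by
  induction j with
  | zero =>
    intro p hp h
    rw [← totalDegree_zero_iff_isHomogeneous, totalDegree_eq_zero_iff_eq_C] at hp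
    have h0 : ev p qone = 0 := h 0
    rw [hp, ev_C] at h0
    rw [hp, h0, map_zero]
  | succ j ih =>
    intro p hp h
    have hd : ∀ a, pderiv a p = 0 := fun a => ih hp.pderiv fun n => (h (n + 1)).2 a
    have he := euler_homogeneous hp
    simp only [euler_apply, hd, mul_zero, sum_const_zero] at he
    exact (smul_eq_zero.mp he.symm).resolve_left (Nat.cast_ne_zero.mpr (Nat.succ_ne_zero j))

/-- A set of homogeneous polynomials stable under the left fields and vanishing at one is `0`. -/
theorem eq_zero_of_stable {j : ℕ} {S : Set Poly} (hhom : ∀ p ∈ S, p.IsHomogeneous j)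
    (hL : ∀ p ∈ S, ∀ k, EL k p ∈ S) (h1 : ∀ p ∈ S, ev p qone = 0) {p : Poly} (hp : p ∈ S) :
    p = 0 := by
  have h : ∀ n, ∀ q ∈ S, Vanish n q := by
    intro n
    induction n with
    | zero => exact h1
    | succ n ih =>
      refine fun q hq => ⟨ih q hq, vanish_pderiv (ih q hq) ?_ fun k => ih _ (hL q hq k)⟩
      rw [euler_homogeneous (hhom q hq), smul_eq_C_mul]
      exact (ih q hq).mul _
  exact eq_zero_of_vanish (hhom p hp) fun n => h n p hp

/-- An operator on coefficients commuting with the left fields which kills the zonal vector is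
zero. -/
theorem cyclic_coeff {j : ℕ} (Y : Fin ((j + 1) ^ 2) → Poly) (hY : ∀ i, Y i ∈ H j)
    (hind : ∀ v : V j, ∑ i, v i • Y i = 0 → v = 0)
    (L : Fin 3 → Op j j) (hskew : ∀ k u v, ⟪L k u, v⟫ = -⟪u, L k v⟫)
    (hL : ∀ k (v : V j), EL k (∑ i, v i • Y i) = ∑ i, (L k v) i • Y i)
    (A : Op j j) (hA : ∀ k v, A (L k v) = L k (A v))
    (hz : A (∑ i, ev (Y i) qone • EuclideanSpace.single i 1) = 0) : A = 0 := by
  set z : V j := ∑ i, ev (Y i) qone • EuclideanSpace.single i 1
  have hzi : ∀ v : V j, ev (∑ i, v i • Y i) qone = ⟪v, z⟫ := fun v => by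
    simp [z, inner_sum, inner_smul_right, EuclideanSpace.inner_single_right, mul_comm]
  set B := ContinuousLinearMap.adjoint A
  have hB : ∀ k u, B (L k u) = L k (B u) := fun k u => ext_inner_right ℝ fun v => by
    rw [ContinuousLinearMap.adjoint_inner_left, hskew, hskew, ← hA,
      ← ContinuousLinearMap.adjoint_inner_left]
  have h0 : ∀ u, B u = 0 := by
    intro u
    refine hind _ (eq_zero_of_stable (j := j)
      (S := Set.range fun w => ∑ i, (B w) i • Y i) ?_ ?_ ?_ ⟨u, rfl⟩)
    · rintro _ ⟨w, rfl⟩
      exact IsHomogeneous.sum _ _ _ fun i _ =>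
        ((homogeneousSubmodule (Fin 4) ℝ j).smul_mem _ (mem_H.mp (hY i)).1)
    · rintro _ ⟨w, rfl⟩ k
      exact ⟨L k w, by simp only [hB, hL]⟩
    · rintro _ ⟨w, rfl⟩
      rw [hzi, ContinuousLinearMap.adjoint_inner_left, hz, inner_zero_right]
  ext v : 1
  refine ext_inner_left ℝ fun u => ?_
  rw [← ContinuousLinearMap.adjoint_inner_left, h0, inner_zero_left]
  simp

end

end Vale.Agent.P225.Sph
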