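import Vale.Agent.P225.Harm.Avg

/-!
P225, module Harm: orthogonality of the degrees, `P_n = H_n ⊕ |x|² P_{n-2}`, `dim H_j = (j+1)²`,
and the expansion of restrictions to the sphere.
-/

namespace Vale.Agent.P225.Sph

open MvPolynomial Finset Module

noncomputable section

instance finite_homog (n : ℕ) : Module.Finite ℝ (homogeneousSubmodule (Fin 4) ℝ n) :=
  Module.Finite.iff_fg.2 (homogeneousSubmodule_fg _ _ n)

instance finite_H (j : ℕ) : Module.Finite ℝ (H j) :=
  Submodule.finiteDimensional_of_le (inf_le_left : H j ≤ homogeneousSubmodule (Fin 4) ℝ j)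

/-- Different degrees are orthogonal on the sphere. -/
theorem sip_H_ne {i j : ℕ} (hij : i ≠ j) {p q : Poly} (hp : p ∈ H i) (hq : q ∈ H j) :
    sip p q = 0 := by
  have h1 : sip (∑ k, EL k (EL k p)) q = sip p (∑ k, EL k (EL k q)) := by
    rw [sip_sum_left, sip_sum_right]
    exact Finset.sum_congr rfl fun k _ => by rw [sip_EL, sip_EL, neg_neg]
  rw [casimirL hp, casimirL hq, sip_smul_left, sip_smul_right] at h1
  have hne : (i : ℝ) * (i + 2) ≠ (j : ℝ) * (j + 2) := by
    intro h
    have : ((i : ℝ) - j) * ((i : ℝ) + j + 2) = 0 := by linarith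
    rcases mul_eq_zero.1 this with h0 | h0
    · exact hij (by exact_mod_cast (by linarith : (i : ℝ) = j))
    · linarith [Nat.cast_nonneg (α := ℝ) i, Nat.cast_nonneg (α := ℝ) j]
  by_contra h0
  exact hne (by linarith [mul_right_cancel₀ h0 h1])

/-- A harmonic expansion on the sphere through degree `n`. -/
def Expands (n : ℕ) (p : Poly) : Prop :=
  ∃ h : ℕ → Poly, (∀ k, h k ∈ H k) ∧
    ∀ x : R4, ‖x‖ = 1 → ev p x = ev (∑ k ∈ range (n + 1), h k) x

lemma isHomogeneous_lap {p : Poly} {n : ℕ} (hp : p.IsHomogeneous n) :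
    (lap p).IsHomogeneous (n - 2) := by
  rw [lap_apply]
  refine IsHomogeneous.sum _ _ _ fun i _ => ?_
  have h := (hp.pderiv (i := i)).pderiv (i := i)
  rwa [Nat.sub_sub] at h

lemma lap_eq_zero_of_lt {p : Poly} {n : ℕ} (hp : p.IsHomogeneous n) (hn : n < 2) : lap p = 0 := by
  rw [lap_apply]
  refine Finset.sum_eq_zero fun i _ => ?_
  have h1 : (pderiv i p).IsHomogeneous 0 := by
    have := hp.pderiv (i := i)
    rwa [Nat.sub_eq_zero_of_le (by omega : n ≤ 1)] at this
  rw [totalDegree_eq_zero_iff_eq_C.1 (Nat.le_zero.1 h1.totalDegree_le)]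
  simp

lemma eq_zero_of_rsq_mul {q : Poly} {m : ℕ} (hq : q.IsHomogeneous m) (he : Expands m q)
    (hl : lap (rsq * q) = 0) : q = 0 := by
  have hh : (rsq * q).IsHomogeneous (2 + m) := isHomogeneous_rsq.mul hq
  have hmem : rsq * q ∈ H (2 + m) := mem_H.2 ⟨hh, hl⟩
  obtain ⟨h, hH, hev⟩ := he
  have h0 : sip (rsq * q) (rsq * q) = 0 := by
    calc sip (rsq * q) (rsq * q) = sip (rsq * q) (∑ k ∈ range (m + 1), h k) := by
          refine avg_congr fun x hx => ?_
          rw [← hev x hx]; simp [hx]
      _ = 0 := by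
          rw [sip_sum_right]
          exact Finset.sum_eq_zero fun k hk =>
            sip_H_ne (by have := Finset.mem_range.1 hk; omega) hmem (hH k)
  exact eq_zero_of_sphere hq fun x hx => by simpa [hx] using ev_eq_zero_of_sip h0 hx

/-- Decomposition and expansion, by induction on the degree. -/
theorem decomp_expand (n : ℕ) : ∀ p : Poly, p.IsHomogeneous n →
    (∃ h ∈ H n, ∃ q : Poly, q.IsHomogeneous (n - 2) ∧ (n < 2 → q = 0) ∧ p = h + rsq * q) ∧
      Expands n p := by
  induction n using Nat.strong_induction_on with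
  | _ n ih =>
    intro p hp
    have hd : ∃ h ∈ H n, ∃ q : Poly,
        q.IsHomogeneous (n - 2) ∧ (n < 2 → q = 0) ∧ p = h + rsq * q := by
      rcases Nat.lt_or_ge n 2 with hn | hn
      · exact ⟨p, mem_H.2 ⟨hp, lap_eq_zero_of_lt hp hn⟩, 0, isHomogeneous_zero _ _ _,
          fun _ => rfl, by simp⟩
      · let T : homogeneousSubmodule (Fin 4) ℝ (n - 2) →ₗ[ℝ]
            homogeneousSubmodule (Fin 4) ℝ (n - 2) :=
          LinearMap.codRestrict _
            (lap ∘ₗ LinearMap.mulLeft ℝ rsq ∘ₗ Submodule.subtype _) fun q => by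
              have h := isHomogeneous_lap (isHomogeneous_rsq.mul
                ((mem_homogeneousSubmodule (n - 2) _).1 q.2))
              rwa [Nat.add_sub_cancel_left] at h
        have hinj : Function.Injective T := by
          rw [← LinearMap.ker_eq_bot, Submodule.eq_bot_iff]
          intro q hq
          have hq' : lap (rsq * (q : Poly)) = 0 := congrArg Subtype.val hq
          exact Subtype.ext (eq_zero_of_rsq_mul q.2 (ih (n - 2) (by omega) _ q.2).2 hq')
        obtain ⟨q, hq⟩ := LinearMap.injective_iff_surjective.1 hinj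
          ⟨lap p, isHomogeneous_lap hp⟩
        have hq' : lap (rsq * (q : Poly)) = lap p := congrArg Subtype.val hq
        refine ⟨p - rsq * q, mem_H.2 ⟨hp.sub ?_, by rw [map_sub, hq', sub_self]⟩, q, q.2,
          fun h => absurd h (by omega), by ring⟩
        have h := isHomogeneous_rsq.mul ((mem_homogeneousSubmodule (n - 2) _).1 q.2)
        rwa [Nat.add_sub_cancel' hn] at h
    refine ⟨hd, ?_⟩
    obtain ⟨h, hh, q, hq, hq0, hpq⟩ := hd
    rcases Nat.lt_or_ge n 2 with hn | hn
    · refine ⟨fun k => if k = n then h else 0, fun k => ?_, fun x _ => ?_⟩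
      · dsimp only
        split_ifs with hk
        · exact hk ▸ hh
        · exact zero_mem _
      · rw [hpq, hq0 hn]; simp
    · obtain ⟨g, hg, hev⟩ := (ih (n - 2) (by omega) q hq).2
      refine ⟨fun k => (if k = n then h else 0) + if k + 2 ≤ n then g k else 0, fun k => ?_,
        fun x hx => ?_⟩
      · refine add_mem ?_ ?_
        · split_ifs with hk
          · exact hk ▸ hh
          · exact zero_mem _
        · split_ifs
          · exact hg k
          · exact zero_mem _
      · have hs : (range (n + 1)).filter (fun k => k + 2 ≤ n) = range (n - 2 + 1) := by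
          ext k; simp only [Finset.mem_filter, Finset.mem_range]; omega
        rw [Finset.sum_add_distrib, ← Finset.sum_filter (fun k => k + 2 ≤ n), hs]
        simp [hpq, hx, hev x hx]

lemma expands_mono {m n : ℕ} (hmn : m ≤ n) {p : Poly} (h : Expands m p) : Expands n p := by
  obtain ⟨g, hg, hev⟩ := h
  refine ⟨fun k => if k ≤ m then g k else 0, fun k => ?_, fun x hx => ?_⟩
  · dsimp only
    split_ifs
    · exact hg k
    · exact zero_mem _
  · have hs : (range (n + 1)).filter (fun k => k ≤ m) = range (m + 1) := by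
      ext k; simp only [Finset.mem_filter, Finset.mem_range]; omega
    rw [← Finset.sum_filter, hs, hev x hx]

lemma expands_sum {ι : Type*} (s : Finset ι) {f : ι → Poly} {n : ℕ}
    (h : ∀ i ∈ s, Expands n (f i)) : Expands n (∑ i ∈ s, f i) := by
  classical
  induction s using Finset.induction_on with
  | empty => exact ⟨fun _ => 0, fun _ => zero_mem _, fun x _ => by simp⟩
  | insert a s ha ihs =>
    obtain ⟨g, hg, he⟩ := h a (Finset.mem_insert_self a s)
    obtain ⟨g', hg', he'⟩ := ihs fun i hi => h i (Finset.mem_insert_of_mem hi)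
    exact ⟨fun k => g k + g' k, fun k => add_mem (hg k) (hg' k), fun x hx => by
      rw [Finset.sum_insert ha, Finset.sum_add_distrib, ev_add, ev_add, he x hx, he' x hx]⟩

/-- Every polynomial has a harmonic expansion on the sphere. -/
theorem expands_of_totalDegree_le {p : Poly} {n : ℕ} (hp : p.totalDegree ≤ n) :
    Expands n p := by
  rw [← sum_homogeneousComponent (φ := p)]
  exact expands_sum _ fun i hi => expands_mono
    (le_trans (Nat.lt_succ_iff.1 (Finset.mem_range.1 hi)) hp)
    (decomp_expand i _ (homogeneousComponent_isHomogeneous i p)).2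

lemma finrank_homog (n : ℕ) :
    finrank ℝ (homogeneousSubmodule (Fin 4) ℝ n) = (n + 3).choose 3 := by
  classical
  set s := (Finset.univ : Finset (Fin 4)).finsuppAntidiag n with hs
  have hspan : homogeneousSubmodule (Fin 4) ℝ n =
      Submodule.span ℝ (Set.range fun d : s => (monomial (d : Fin 4 →₀ ℕ) (1 : ℝ))) := by
    rw [homogeneousSubmodule_eq_finsupp_supported, AddMonoidAlgebra.supported_eq_span_single]
    congr 1
    ext p
    simp [hs, MvPolynomial.single_eq_monomial, Finset.mem_finsuppAntidiag, Finsupp.degree_eq_sum]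
  have hli : LinearIndependent ℝ fun d : s => (monomial (d : Fin 4 →₀ ℕ) (1 : ℝ)) :=
    (MvPolynomial.basisMonomials (Fin 4) ℝ).linearIndependent.comp Subtype.val
      Subtype.val_injective
  rw [hspan, finrank_span_eq_card hli, Fintype.card_coe, hs,
    Finset.card_finsuppAntidiag_nat_eq_choose, Finset.card_univ, Fintype.card_fin,
    ← Nat.choose_symm (by omega : n ≤ 4 + n - 1)]
  congr 1 <;> omega

/-- `dim H_j = (j+1)²`. -/
theorem finrank_H (j : ℕ) : finrank ℝ (H j) = (j + 1) ^ 2 := by
  rcases Nat.lt_or_ge j 2 with hj | hj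
  · have hH : H j = homogeneousSubmodule (Fin 4) ℝ j :=
      le_antisymm inf_le_left fun p hp => mem_H.2 ⟨hp, lap_eq_zero_of_lt hp hj⟩
    rw [hH, finrank_homog]
    interval_cases j <;> rfl
  · let Φ : (H j × homogeneousSubmodule (Fin 4) ℝ (j - 2)) →ₗ[ℝ]
        homogeneousSubmodule (Fin 4) ℝ j :=
      LinearMap.codRestrict _ ((Submodule.subtype (H j)).coprod
        (LinearMap.mulLeft ℝ rsq ∘ₗ Submodule.subtype _)) fun z => by
          have h := isHomogeneous_rsq.mul ((mem_homogeneousSubmodule (j - 2) _).1 z.2.2)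
          rw [Nat.add_sub_cancel' hj] at h
          exact (mem_H.1 z.1.2).1.add h
    have hinj : Function.Injective Φ := by
      rw [← LinearMap.ker_eq_bot, Submodule.eq_bot_iff]
      intro z hz
      have hz' : (z.1 : Poly) + rsq * (z.2 : Poly) = 0 := congrArg Subtype.val hz
      have hl : lap (rsq * (z.2 : Poly)) = 0 := by
        have h := congrArg lap hz'
        simpa [(mem_H.1 z.1.2).2] using h
      have hq : (z.2 : Poly) = 0 :=
        eq_zero_of_rsq_mul z.2.2 (decomp_expand _ _ z.2.2).2 hl
      refine Prod.ext (Subtype.ext ?_) (Subtype.ext hq)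
      simpa [hq] using hz'
    have hsurj : Function.Surjective Φ := by
      intro p
      obtain ⟨h, hh, q, hq, -, hpq⟩ := (decomp_expand j p p.2).1
      exact ⟨(⟨h, hh⟩, ⟨q, hq⟩), Subtype.ext hpq.symm⟩
    have hf := (LinearEquiv.ofBijective Φ ⟨hinj, hsurj⟩).finrank_eq
    rw [finrank_prod, finrank_homog, finrank_homog] at hf
    obtain ⟨m, rfl⟩ : ∃ m, j = m + 2 := ⟨j - 2, by omega⟩
    rw [Nat.add_sub_cancel] at hf
    have e1 : (m + 2 + 3).choose 3 = (m + 4).choose 2 + (m + 4).choose 3 := Nat.choose_succ_succ' _ _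
    have e2 : (m + 4).choose 3 = (m + 3).choose 2 + (m + 3).choose 3 := Nat.choose_succ_succ' _ _
    have c2 : ∀ k : ℕ, 2 * (k + 1).choose 2 = (k + 1) * k := by
      intro k
      induction k with
      | zero => rfl
      | succ k ihk => rw [Nat.choose_succ_succ', Nat.choose_one_right]; linarith
    have c3 := c2 (m + 3)
    have c4 := c2 (m + 2)
    nlinarith

/-- The inner product of the sphere on `H j`. -/
@[implicit_reducible]
def sipCore (j : ℕ) : InnerProductSpace.Core ℝ (H j) where
  inner p q := sip p q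
  conj_inner_symm p q := by simpa using sip_comm (q : Poly) p
  re_inner_nonneg p := by simpa using sip_self_nonneg (p : Poly)
  add_left p q r := sip_add_left (p : Poly) q r
  smul_left p q c := by simpa using sip_smul_left c (p : Poly) q
  definite p h := Subtype.ext (eq_zero_of_sphere (mem_H.1 p.2).1 fun _ hx =>
    ev_eq_zero_of_sip h hx)

/-- Expansion on the sphere in orthonormal bases of the degrees. -/
theorem ev_expand {Y : (j : ℕ) → Fin ((j + 1) ^ 2) → Poly} (hY : ∀ j i, Y j i ∈ H j)
    (hexp : ∀ j, ∀ p ∈ H j, p = ∑ i, sip p (Y j i) • Y j i) {p : Poly} {n : ℕ}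
    (hp : p.totalDegree ≤ n) {x : R4} (hx : ‖x‖ = 1) :
    ev p x = ∑ j ∈ range (n + 1), ∑ i, sip p (Y j i) * ev (Y j i) x := by
  obtain ⟨h, hH, hev⟩ := expands_of_totalDegree_le hp
  have hs : ∀ j ∈ range (n + 1), ∀ i, sip p (Y j i) = sip (h j) (Y j i) := by
    intro j hj i
    have h1 : sip p (Y j i) = sip (∑ k ∈ range (n + 1), h k) (Y j i) :=
      avg_congr fun y hy => by rw [hev y hy]
    rw [h1, sip_sum_left, Finset.sum_eq_single j (fun k _ hk => sip_H_ne hk (hH k) (hY j i))
      (fun hk => absurd hj hk)]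
  rw [hev x hx, ev_sum]
  refine Finset.sum_congr rfl fun j hj => ?_
  conv_lhs => rw [hexp j (h j) (hH j)]
  rw [ev_sum]
  exact Finset.sum_congr rfl fun i _ => by rw [ev_smul, hs j hj i]

end

end Vale.Agent.P225.Sph
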