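import Vale.Agent.P225.Defs

/-!
# P225, harmonic polynomials on `ℝ⁴` restricted to the three-sphere

`ℝ⁴` is the quaternion algebra, `x = x₀ + x₁ i + x₂ j + x₃ k`. `EL k`, `ER k` differentiate along
`q_k x`, resp. `x q_k`; the inner product is the average over the unit sphere.

`HarmData` collects what the rest of the argument uses about an orthonormal harmonic basis which
diagonalises `ER 0 ^ 2`.
-/

open MeasureTheory MvPolynomial Finset

namespace Vale.Agent.P225.Sph

noncomputable section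

/-- Polynomials in the four coordinates. -/
abbrev Poly := MvPolynomial (Fin 4) ℝ

/-- The polynomial function. -/
def ev (p : Poly) (x : R4) : ℝ := MvPolynomial.eval (fun i => x i) p

/-- `|x|²`. -/
def rsq : Poly := ∑ i, X i ^ 2

/-- The Euclidean Laplacian. -/
def lap : Poly →ₗ[ℝ] Poly := ∑ i, (pderiv i).toLinearMap.comp (pderiv i).toLinearMap

/-- The vector `q_k x`. -/
def vecL : Fin 3 → Fin 4 → Poly :=
  ![![-X 1, X 0, -X 3, X 2], ![-X 2, X 3, X 0, -X 1], ![-X 3, -X 2, X 1, X 0]]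

/-- The vector `x q_k`. -/
def vecR : Fin 3 → Fin 4 → Poly :=
  ![![-X 1, X 0, X 3, -X 2], ![-X 2, -X 3, X 0, X 1], ![-X 3, X 2, -X 1, X 0]]

/-- Derivative along `q_k x`. -/
def EL (k : Fin 3) : Derivation ℝ Poly Poly := mkDerivation ℝ (vecL k)

/-- Derivative along `x q_k`. -/
def ER (k : Fin 3) : Derivation ℝ Poly Poly := mkDerivation ℝ (vecR k)

/-- Average over the unit sphere, as the average over the unit ball of the radial extension. -/
def avg (f : R4 → ℝ) : ℝ := ⨍ x in Metric.closedBall (0 : R4) 1, f (‖x‖⁻¹ • x)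

/-- The inner product of two polynomials on the sphere. -/
def sip (p q : Poly) : ℝ := avg fun x => ev p x * ev q x

/-- Harmonic polynomials homogeneous of degree `j`. -/
def H (j : ℕ) : Submodule ℝ Poly := homogeneousSubmodule (Fin 4) ℝ j ⊓ LinearMap.ker lap

/-- The number of basis vectors of label `(j, m)`. -/
def labelDim (j m : ℕ) : ℕ :=
  if m ≤ j ∧ Even (j + m) then (if m = 0 then j + 1 else 2 * (j + 1)) else 0

/-- An orthonormal basis of harmonic polynomials adapted to `ER 0 ^ 2`, with its properties. -/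
structure HarmData where
  /-- The basis of degree `j`. -/
  Y : (j : ℕ) → Fin ((j + 1) ^ 2) → Poly
  /-- The absolute charge of a basis vector. -/
  chg : (j : ℕ) → Fin ((j + 1) ^ 2) → ℕ
  mem : ∀ j i, Y j i ∈ H j
  ortho : ∀ j i j' i', sip (Y j i) (Y j' i') = if j = j' ∧ (i : ℕ) = i' then 1 else 0
  expand : ∀ j, ∀ p ∈ H j, p = ∑ i, sip p (Y j i) • Y j i
  chg_sq : ∀ j i, ER 0 (ER 0 (Y j i)) = -((chg j i : ℝ) ^ 2) • Y j i
  chg_card : ∀ j m, #{i | chg j i = m} = labelDim j m

namespace HarmData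

variable (D : HarmData)

/-- Matrix of `EL k` in degree `j`. -/
def matL (k : Fin 3) (j : ℕ) : Matrix (Fin ((j + 1) ^ 2)) (Fin ((j + 1) ^ 2)) ℝ :=
  fun a b => sip (D.Y j a) (EL k (D.Y j b))

/-- Matrix of `ER k` in degree `j`. -/
def matR (k : Fin 3) (j : ℕ) : Matrix (Fin ((j + 1) ^ 2)) (Fin ((j + 1) ^ 2)) ℝ :=
  fun a b => sip (D.Y j a) (ER k (D.Y j b))

/-- Matrix of multiplication by `f` from degree `j'` to degree `j`. -/
def mulMat (f : Poly) (j j' : ℕ) : Matrix (Fin ((j + 1) ^ 2)) (Fin ((j' + 1) ^ 2)) ℝ :=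
  fun a b => sip (D.Y j a) (f * D.Y j' b)

end HarmData

end

end Vale.Agent.P225.Sph
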