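import Vale.Agent.P225.Harm.Algebra
import Vale.Agent.P225.Core

/-!
P225, module Harm: polynomial functions on `ℝ⁴`.
-/

namespace Vale.Agent.P225.Sph

open MvPolynomial Finset
open scoped ContDiff RealInnerProductSpace

noncomputable section

/-- Evaluation as a ring homomorphism. -/
def evHom (x : R4) : Poly →+* ℝ := MvPolynomial.eval fun i => x i

lemma ev_def (p : Poly) (x : R4) : ev p x = evHom x p := rfl

@[simp] lemma ev_X (i : Fin 4) (x : R4) : ev (X i) x = x i := by simp [ev]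

@[simp] lemma ev_C (c : ℝ) (x : R4) : ev (C c) x = c := by simp [ev]

@[simp] lemma ev_zero (x : R4) : ev 0 x = 0 := by simp [ev]

@[simp] lemma ev_one (x : R4) : ev 1 x = 1 := by simp [ev]

@[simp] lemma ev_add (p q : Poly) (x : R4) : ev (p + q) x = ev p x + ev q x := by simp [ev]

@[simp] lemma ev_sub (p q : Poly) (x : R4) : ev (p - q) x = ev p x - ev q x := by simp [ev]

@[simp] lemma ev_neg (p : Poly) (x : R4) : ev (-p) x = -ev p x := by simp [ev]

@[simp] lemma ev_mul (p q : Poly) (x : R4) : ev (p * q) x = ev p x * ev q x := by simp [ev]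

@[simp] lemma ev_pow (p : Poly) (n : ℕ) (x : R4) : ev (p ^ n) x = ev p x ^ n := by simp [ev]

@[simp] lemma ev_smul (c : ℝ) (p : Poly) (x : R4) : ev (c • p) x = c * ev p x := by
  simp [ev, MvPolynomial.smul_eq_C_mul]

@[simp] lemma ev_sum {ι : Type*} (s : Finset ι) (p : ι → Poly) (x : R4) :
    ev (∑ i ∈ s, p i) x = ∑ i ∈ s, ev (p i) x := by simp [ev]

lemma ev_ext {p q : Poly} (h : ∀ x : R4, ev p x = ev q x) : p = q :=
  MvPolynomial.funext fun z => h (WithLp.toLp 2 z)

lemma norm_sq_eq (x : R4) : ‖x‖ ^ 2 = x 0 ^ 2 + x 1 ^ 2 + x 2 ^ 2 + x 3 ^ 2 := by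
  simp [EuclideanSpace.norm_sq_eq, Fin.sum_univ_four]

@[simp] lemma ev_rsq (x : R4) : ev rsq x = ‖x‖ ^ 2 := by
  simp [rsq, Fin.sum_univ_four, norm_sq_eq]

lemma isHomogeneous_rsq : rsq.IsHomogeneous 2 :=
  IsHomogeneous.sum _ _ _ fun i _ => isHomogeneous_X_pow i 2

lemma ev_homog {p : Poly} {j : ℕ} (hp : p.IsHomogeneous j) (c : ℝ) (x : R4) :
    ev p (c • x) = c ^ j * ev p x := by
  simp only [ev, MvPolynomial.eval_eq', Finset.mul_sum]
  refine Finset.sum_congr rfl fun d hd => ?_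
  have hdeg : ∑ i, d i = j := by
    have h := hp.degree_eq_sum_deg_support hd
    rw [h]
    exact (Finset.sum_subset (Finset.subset_univ _) fun i _ hi => by simpa using hi).symm
  simp only [PiLp.smul_apply, smul_eq_mul, mul_pow, Finset.prod_mul_distrib,
    Finset.prod_pow_eq_pow_sum, hdeg]
  ring

/-- A homogeneous polynomial vanishing on the sphere is zero. -/
lemma eq_zero_of_sphere {p : Poly} {j : ℕ} (hp : p.IsHomogeneous j)
    (h : ∀ x : R4, ‖x‖ = 1 → ev p x = 0) : p = 0 := by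
  apply ev_ext
  intro x
  rw [ev_zero]
  rcases eq_or_ne x 0 with rfl | hx
  · rcases j.eq_zero_or_pos with rfl | hj
    · have h0 := h (EuclideanSpace.single 0 1) (by simp)
      have hs := ev_homog hp 0 (EuclideanSpace.single (0 : Fin 4) 1)
      simpa [h0] using hs
    · have hs := ev_homog hp 0 (0 : R4)
      simpa [hj.ne'] using hs
  · have hn : ‖x‖ ≠ 0 := norm_ne_zero_iff.2 hx
    have he : ev p x = ‖x‖ ^ j * ev p (‖x‖⁻¹ • x) := by
      rw [← ev_homog hp, smul_smul, mul_inv_cancel₀ hn, one_smul]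
    rw [he, h _ (by simpa using norm_smul_inv_norm (𝕜 := ℝ) hx), mul_zero]

lemma hasFDerivAt_ev (p : Poly) (x : R4) :
    HasFDerivAt (ev p)
      (∑ a, ev (pderiv a p) x • (EuclideanSpace.proj a : R4 →L[ℝ] ℝ)) x := by
  induction p using MvPolynomial.induction_on with
  | C c =>
    have hf : ev (MvPolynomial.C (σ := Fin 4) c) = fun _ : R4 => c := by funext y; exact MvPolynomial.eval_C c
    simpa [hf] using hasFDerivAt_const c x
  | add p q hp hq =>
    have hf : ev (p + q) = fun y => ev p y + ev q y := by funext y; simp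
    rw [hf]
    exact (hp.add hq).congr_fderiv (by simp [add_smul, Finset.sum_add_distrib])
  | mul_X p i hp =>
    have hf : ev (p * X i) = fun y => ev p y * (EuclideanSpace.proj i : R4 →L[ℝ] ℝ) y :=
      funext fun y => by simp
    rw [hf]
    refine (hp.mul (EuclideanSpace.proj i : R4 →L[ℝ] ℝ).hasFDerivAt).congr_fderiv ?_
    ext v
    fin_cases i <;> simp [Fin.sum_univ_four, pderiv_X, Pi.single_apply] <;> ring

lemma contDiff_ev {n : WithTop ℕ∞} (p : Poly) : ContDiff ℝ n (ev p) := by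
  induction p using MvPolynomial.induction_on with
  | C c =>
    have hf : ev (MvPolynomial.C (σ := Fin 4) c) = fun _ : R4 => c := by funext y; exact MvPolynomial.eval_C c
    rw [hf]; exact contDiff_const
  | add p q hp hq =>
    have hf : ev (p + q) = fun y => ev p y + ev q y := by funext y; simp
    rw [hf]; exact hp.add hq
  | mul_X p i hp =>
    have hf : ev (p * X i) = fun y => ev p y * (EuclideanSpace.proj i : R4 →L[ℝ] ℝ) y :=
      funext fun y => by simp
    rw [hf]; exact hp.mul (EuclideanSpace.proj i : R4 →L[ℝ] ℝ).contDiff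

@[fun_prop]
lemma continuous_ev (p : Poly) : Continuous (ev p) := (contDiff_ev (n := 0) p).continuous

lemma fderiv_ev (p : Poly) (x v : R4) : fderiv ℝ (ev p) x v = ∑ a, ev (pderiv a p) x * v a := by
  simp [(hasFDerivAt_ev p x).fderiv]

lemma pd_ev (p : Poly) (a : Fin 4) : pd a (ev p) = ev (pderiv a p) := by
  funext x
  rw [pd, fderiv_ev]
  simp [PiLp.single_apply, Finset.sum_ite_eq']

lemma qL_apply (k : Fin 3) (x : R4) (a : Fin 4) : qL k x a = ev (vecL k a) x := by
  fin_cases k <;> fin_cases a <;> simp [qL, vecL]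

lemma qR_apply (k : Fin 3) (x : R4) (a : Fin 4) : qR k x a = ev (vecR k a) x := by
  fin_cases k <;> fin_cases a <;> simp [qR, vecR]

lemma fderiv_qL (k : Fin 3) (p : Poly) (x : R4) :
    fderiv ℝ (ev p) x (qL k x) = ev (EL k p) x := by
  have h : EL k p = ∑ a, vecL k a * pderiv a p := EL_apply k p
  rw [h, fderiv_ev, ev_sum]
  exact Finset.sum_congr rfl fun a _ => by rw [ev_mul, qL_apply, mul_comm]

lemma fderiv_qR (k : Fin 3) (p : Poly) (x : R4) :
    fderiv ℝ (ev p) x (qR k x) = ev (ER k p) x := by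
  have h : ER k p = ∑ a, vecR k a * pderiv a p := ER_apply k p
  rw [h, fderiv_ev, ev_sum]
  exact Finset.sum_congr rfl fun a _ => by rw [ev_mul, qR_apply, mul_comm]

lemma norm_qL (k : Fin 3) (x : R4) : ‖qL k x‖ = ‖x‖ := by
  rw [← sq_eq_sq₀ (norm_nonneg _) (norm_nonneg _), norm_sq_eq, norm_sq_eq]
  fin_cases k <;> simp [qL] <;> ring

lemma norm_qR (k : Fin 3) (x : R4) : ‖qR k x‖ = ‖x‖ := by
  rw [← sq_eq_sq₀ (norm_nonneg _) (norm_nonneg _), norm_sq_eq, norm_sq_eq]
  fin_cases k <;> simp [qR] <;> ring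

lemma inner_eq (x y : R4) : ⟪x, y⟫ = x 0 * y 0 + x 1 * y 1 + x 2 * y 2 + x 3 * y 3 := by
  simp [PiLp.inner_apply, Fin.sum_univ_four, mul_comm]

lemma inner_qL (k : Fin 3) (x : R4) : ⟪x, qL k x⟫ = 0 := by
  rw [inner_eq]; fin_cases k <;> simp [qL] <;> ring

lemma inner_qR (k : Fin 3) (x : R4) : ⟪x, qR k x⟫ = 0 := by
  rw [inner_eq]; fin_cases k <;> simp [qR] <;> ring

lemma exists_linear_qL (k : Fin 3) : ∃ A : R4 →L[ℝ] R4, ∀ x, A x = qL k x := by
  refine ⟨LinearMap.toContinuousLinearMap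
    { toFun := qL k, map_add' := fun x y => ?_, map_smul' := fun c x => ?_ }, fun x => rfl⟩
  · ext a; rw [PiLp.add_apply, qL_apply, qL_apply, qL_apply]
    fin_cases k <;> fin_cases a <;> simp [vecL] <;> ring
  · ext a; rw [RingHom.id_apply, PiLp.smul_apply, qL_apply, qL_apply]
    fin_cases k <;> fin_cases a <;> simp [vecL]

lemma exists_linear_qR (k : Fin 3) : ∃ A : R4 →L[ℝ] R4, ∀ x, A x = qR k x := by
  refine ⟨LinearMap.toContinuousLinearMap
    { toFun := qR k, map_add' := fun x y => ?_, map_smul' := fun c x => ?_ }, fun x => rfl⟩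
  · ext a; rw [PiLp.add_apply, qR_apply, qR_apply, qR_apply]
    fin_cases k <;> fin_cases a <;> simp [vecR] <;> ring
  · ext a; rw [RingHom.id_apply, PiLp.smul_apply, qR_apply, qR_apply]
    fin_cases k <;> fin_cases a <;> simp [vecR]

end

end Vale.Agent.P225.Sph
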